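import Vale.Agent.P297.H637.MSpec

/-!
Degenerate members of natural families of cycles without constants: an absolute relation, for any
number of parameters.
-/

set_option linter.unusedSectionVars false
set_option linter.style.haveILetI false

open IntermediateField Polynomial

namespace Vale.Agent.P297.H860

open Vale.Agent.P297 Vale.Agent.P297.Gen Vale.Agent.P297.H839 Vale.Agent.P297.H729
open Vale.Agent.P297.H72 Vale.Agent.P297.H521 Vale.Agent.P297.H516 Vale.Agent.P297.H279
open Vale.Agent.P297.H637

section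

variable {N : Type} [Field N] [Algebra ℂ N] [IsAlgClosed N]

/-- Closed subfields are algebraically closed. -/
theorem isAlgClosed_closed {M : IntermediateField ℂ N} (hM : ∀ u, IsAlgebraic M u → u ∈ M) :
    IsAlgClosed M := by
  refine IsAlgClosed.of_exists_root _ fun p _ hirr => ?_
  obtain ⟨r, hr⟩ := exists_root_mem M hM p hirr.natDegree_pos
  exact ⟨r, hr⟩

/-- A free family is algebraically independent. -/
theorem indep_of_free {F : IntermediateField ℂ N} {n : ℕ} {v : Fin n → N} (hv : Free F v) :
    AlgebraicIndependent ℂ v := by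
  refine algebraicIndependent_of_finite_type' (algebraMap ℂ N).injective fun t _ _ i hi halg => ?_
  have h1 : v i ∈ cl0 (v '' t) := by
    rw [mem_cl0]
    exact IntermediateField.isAlgebraic_adjoin_iff.2 halg
  refine hv i (cl0_le (clo_closed F _) ?_ h1)
  refine (Set.image_mono (f := v) ?_).trans (subset_clo _ _)
  intro j hj hji
  rw [Set.mem_singleton_iff] at hji
  exact hi (hji ▸ hj)

/-- The closure of a finite independent family: all cycles defined over the family are
relations. -/
theorem exists_gen {n : ℕ} {u : Fin n → N} (hu : AlgebraicIndependent ℂ u) (K : Type) [Field K]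
    [Algebra ℂ K] (m : ℤ) :
    ∃ (M : Type) (_ : Field M) (_ : Algebra ℂ M) (_ : IsAlgClosed M) (μ : M →ₐ[ℂ] N)
      (u' : Fin n → M), (∀ i, μ (u' i) = u i) ∧ ∀ W : (K →ₐ[ℂ] M) →₀ ℤ,
        (∀ g : M →ₐ[ℂ] M, (∀ i, g (u' i) = u' i) →
          Finsupp.mapDomain (fun φ : K →ₐ[ℂ] M => g.comp φ) W = W) → W ∈ Rel m K M := by
  classical
  set M : IntermediateField ℂ N := cl0 (Set.range u) with hM
  have hcl : ∀ z, IsAlgebraic M z → z ∈ M := cl0_closed _
  have halg : IsAlgClosed M := isAlgClosed_closed hcl
  have hmem : ∀ i, u i ∈ M := fun i => subset_cl0 _ ⟨i, rfl⟩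
  refine ⟨M, inferInstance, inferInstance, halg, M.val, fun i => ⟨u i, hmem i⟩, fun i => rfl,
    fun W hW => ?_⟩
  set u' : Fin n → M := fun i => ⟨u i, hmem i⟩ with hu'
  have hind : AlgebraicIndependent ℂ u' := AlgebraicIndependent.of_comp M.val hu
  have hmap : (IntermediateField.adjoin ℂ (Set.range u')).map M.val =
      IntermediateField.adjoin ℂ (Set.range u) := by
    rw [IntermediateField.adjoin_map]
    congr 1
    rw [← Set.range_comp]
    rfl
  have hle : IntermediateField.adjoin ℂ (Set.range u) ≤ M := by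
    rw [IntermediateField.adjoin_le_iff]
    exact subset_cl0 _
  refine Rel.of_stable (H600.stable_of_fixed (IntermediateField.adjoin ℂ (Set.range u'))
    ⟨n, u', hind, rfl⟩ ⟨fun y => ?_⟩ W fun g hg => ?_)
  · have hy : IsAlgebraic (IntermediateField.adjoin ℂ (Set.range u)) (y : N) := mem_cl0.1 y.2
    obtain ⟨p, hp0, hp⟩ := hy
    let ι : IntermediateField.adjoin ℂ (Set.range u) →+* M :=
      (IntermediateField.inclusion hle).toRingHom
    have hι : ∀ c, ((ι c : M) : N) = c := fun _ => rfl
    refine isAlgebraic_of_coeff (p := p.map ι) (fun k => ?_) ?_ ?_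
    · rw [coeff_map]
      have h1 : ((p.coeff k : IntermediateField.adjoin ℂ (Set.range u)) : N) ∈
          (IntermediateField.adjoin ℂ (Set.range u')).map M.val := by
        rw [hmap]
        exact (p.coeff k).2
      obtain ⟨z, hz, hzk⟩ := h1
      have h2 : ι (p.coeff k) = z := Subtype.ext (hzk.symm)
      rw [h2]
      exact hz
    · exact (Polynomial.map_ne_zero_iff ι.injective).2 hp0
    · apply Subtype.ext
      rw [Polynomial.aeval_def] at hp
      rw [Polynomial.eval_map]
      have h3 := Polynomial.hom_eval₂ p ι M.val.toRingHom y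
      have h4 : M.val.toRingHom.comp ι =
        algebraMap (IntermediateField.adjoin ℂ (Set.range u)) N := rfl
      rw [h4] at h3
      exact h3.trans hp
  · exact hW g.toAlgHom fun i => hg _ (IntermediateField.subset_adjoin _ _ ⟨i, rfl⟩)

/-- **Generic members of natural families without constants are relations.** -/
theorem rel_of_free {K : Type} [Field K] [Algebra ℂ K] {n : ℕ} {m : ℤ}
    (V : ∀ (L : Type) [Field L] [Algebra ℂ L] [IsAlgClosed L], (Fin n → L) → ((K →ₐ[ℂ] L) →₀ ℤ))
    (hnat : ∀ (L L' : Type) [Field L] [Algebra ℂ L] [IsAlgClosed L] [Field L'] [Algebra ℂ L']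
      [IsAlgClosed L'] (g : L →ₐ[ℂ] L') (v : Fin n → L),
      Finsupp.mapDomain (fun φ : K →ₐ[ℂ] L => g.comp φ) (V L v) = V L' (fun i => g (v i)))
    {F : IntermediateField ℂ N} {u : Fin n → N} (hu : Free F u) : V N u ∈ Rel m K N := by
  obtain ⟨M, _, _, _, μ, u', hu', hW⟩ := exists_gen (indep_of_free hu) K m
  have h1 : V M u' ∈ Rel m K M := hW _ fun g hg => by
    rw [hnat M M g]
    congr 1
    funext i
    exact hg i
  have h2 := Rel.map μ h1
  rw [hnat M N μ] at h2
  have h3 : (fun i => μ (u' i)) = u := funext hu'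
  rwa [h3] at h2

/-- **Degenerate members of natural families without constants**, in terms of specialisations of
cycles: if the member of the natural family `V` with parameters infinitely near to the arbitrary
parameters `v₀` specialises to the cycle `W`, then `W` is a relation. -/
theorem multi_specC_abs {K : Type} [Field K] [Algebra ℂ K] {n : ℕ} {m : ℤ}
    (V : ∀ (L : Type) [Field L] [Algebra ℂ L] [IsAlgClosed L], (Fin n → L) → ((K →ₐ[ℂ] L) →₀ ℤ))
    (hnat : ∀ (L L' : Type) [Field L] [Algebra ℂ L] [IsAlgClosed L] [Field L'] [Algebra ℂ L']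
      [IsAlgClosed L'] (g : L →ₐ[ℂ] L') (v : Fin n → L),
      Finsupp.mapDomain (fun φ : K →ₐ[ℂ] L => g.comp φ) (V L v) = V L' (fun i => g (v i)))
    {N : Type} [Field N] [Algebra ℂ N] [IsAlgClosed N] (v₀ w : Fin n → N)
    (W : (K →ₐ[ℂ] N) →₀ ℤ)
    (H : ∀ (N₁ : Type) [Field N₁] [Algebra ℂ N₁] [Algebra N N₁] [IsScalarTower ℂ N N₁]
      [IsAlgClosed N₁] (P : Plc N N₁) (l : N₁) (y : Fin n → N₁), l ≠ 0 → P.Val l 0 →
      (∀ i, P.Val (y i) (w i)) → Free (img N N₁) (fun i => algebraMap N N₁ (v₀ i) + l * y i) →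
      (V N₁ (fun i => algebraMap N N₁ (v₀ i) + l * y i), W) ∈ SpecC K P) :
    W ∈ Rel m K N := by
  obtain ⟨N₁, _, _, _, _, _, P, l, y, hl0, hl, hy, hfree⟩ := exists_dir_plc N v₀ w
  exact SpecC.rel (P := P) (H N₁ P l y hl0 hl hy hfree) (rel_of_free (m := m) V hnat hfree)

end

end Vale.Agent.P297.H860
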