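import Vale.Agent.P297.H279.Jet
import Vale.Agent.P297.H637.Z2.Fam6
import Vale.Agent.P297.H10.Z2.Cpar

/-!
First order expansions of the polynomials of the family of the two-sections along a place.
-/

set_option linter.unusedSectionVars false
set_option linter.unusedVariables false

open Polynomial TrivSqZeroExt

namespace Vale.Agent.P297.H860.Z2

open Vale.Agent.P297 Vale.Agent.P297.Gen Vale.Agent.P297.H72 Vale.Agent.P297.H637
open Vale.Agent.P297.H160.Z2Irr Vale.Agent.P297.Z2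
open Vale.Agent.P297.H279 (jAlg jfst jsnd jX jC jet_of_jAlg pvAlg)

section dual

variable {R R' : Type} [CommRing R] [Algebra ℂ R] [CommRing R'] [Algebra ℂ R']

/-- the map induced on the dual numbers -/
def dmap (f : R →ₐ[ℂ] R') : DualNumber R →ₐ[ℂ] DualNumber R' where
  toFun d := inl (f d.fst) + inr (f d.snd)
  map_one' := by
    rw [fst_one, snd_one, map_one, map_zero, inl_one, inr_zero, add_zero]
  map_zero' := by
    rw [fst_zero, snd_zero, map_zero, inl_zero, inr_zero, add_zero]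
  map_add' a b := by
    rw [fst_add, snd_add, map_add, map_add, inl_add, inr_add]
    ring
  map_mul' a b := by
    apply TrivSqZeroExt.ext
    · simp only [fst_mul, fst_add, fst_inl, fst_inr, add_zero, map_mul]
    · simp only [snd_mul, fst_mul, snd_add, fst_add, fst_inl, fst_inr, snd_inl, snd_inr, add_zero,
        zero_add, smul_eq_mul, MulOpposite.smul_eq_mul_unop, MulOpposite.unop_op, map_add, map_mul]
  commutes' z := by
    apply TrivSqZeroExt.ext
    · rw [fst_add, fst_inl, fst_inr, add_zero]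
      exact f.commutes z
    · rw [snd_add, snd_inl, snd_inr, zero_add]
      exact map_zero f

theorem dmap_apply (f : R →ₐ[ℂ] R') (d : DualNumber R) :
    dmap f d = inl (f d.fst) + inr (f d.snd) := rfl

theorem fst_dmap (f : R →ₐ[ℂ] R') (d : DualNumber R) : (dmap f d).fst = f d.fst := by
  rw [dmap_apply, fst_add, fst_inl, fst_inr, add_zero]

theorem snd_dmap (f : R →ₐ[ℂ] R') (d : DualNumber R) : (dmap f d).snd = f d.snd := by
  rw [dmap_apply, snd_add, snd_inl, snd_inr, zero_add]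

theorem dmap_inl (f : R →ₐ[ℂ] R') (x : R) : dmap f (inl x) = inl (f x) := by
  rw [dmap_apply, fst_inl, snd_inl, map_zero, inr_zero, add_zero]

/-- the first component -/
def dfst (R : Type) [CommRing R] [Algebra ℂ R] : DualNumber R →ₐ[ℂ] R := fstHom ℂ R R

theorem dfst_apply (d : DualNumber R) : dfst R d = d.fst := rfl

/-- constants -/
noncomputable def cA (R : Type) [CommRing R] [Algebra ℂ R] : R →ₐ[ℂ] R[X] :=
  (Polynomial.CAlgHom : R →ₐ[R] R[X]).restrictScalars ℂ

theorem cA_apply (x : R) : cA R x = C x := rfl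

/-- evaluation -/
noncomputable def eA (t : R) : R[X] →ₐ[ℂ] R := (Polynomial.aeval t : R[X] →ₐ[R] R).restrictScalars ℂ

theorem eA_apply (t : R) (q : R[X]) : eA t q = q.eval t := by
  unfold eA
  rw [AlgHom.restrictScalars_apply, Polynomial.coe_aeval_eq_eval]

end dual

section jets

variable {N N₁ : Type} [Field N] [Algebra ℂ N] [Field N₁] [Algebra ℂ N₁] [Algebra N N₁]
  [IsScalarTower ℂ N N₁]

/-- `x = d.fst + ε x'` and `x'` has the value `d.snd`. -/
def Jt (V : Plc N N₁) (ε : N₁) (x : N₁) (d : DualNumber N) : Prop :=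
  ∃ x', x = algebraMap N N₁ d.fst + ε * x' ∧ V.Val x' d.snd

variable {V : Plc N N₁} {ε : N₁} {x y : N₁} {d e : DualNumber N}

theorem Jt.cst (a : N) : Jt V ε (algebraMap N N₁ a) (inl a) :=
  ⟨0, by rw [fst_inl, mul_zero, add_zero], by rw [snd_inl]; exact V.val_zero⟩

theorem Jt.mv (a : N) {y : N₁} {w : N} (hy : V.Val y w) :
    Jt V ε (algebraMap N N₁ a + ε * y) (inl a + inr w) :=
  ⟨y, by rw [fst_add, fst_inl, fst_inr, add_zero], by rw [snd_add, snd_inl, snd_inr, zero_add]
                                                      exact hy⟩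

theorem Jt.add (h : Jt V ε x d) (h' : Jt V ε y e) : Jt V ε (x + y) (d + e) := by
  obtain ⟨x', h1, h2⟩ := h
  obtain ⟨y', h3, h4⟩ := h'
  refine ⟨x' + y', ?_, ?_⟩
  · rw [fst_add, map_add, h1, h3]
    ring
  · rw [snd_add]
    exact h2.add h4

theorem Jt.neg (h : Jt V ε x d) : Jt V ε (-x) (-d) := by
  obtain ⟨x', h1, h2⟩ := h
  refine ⟨-x', ?_, ?_⟩
  · rw [fst_neg, map_neg, h1]
    ring
  · rw [snd_neg]
    exact h2.neg

theorem Jt.sub (h : Jt V ε x d) (h' : Jt V ε y e) : Jt V ε (x - y) (d - e) := by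
  rw [sub_eq_add_neg, sub_eq_add_neg]
  exact h.add h'.neg

theorem Jt.mul (hε : V.Val ε 0) (h : Jt V ε x d) (h' : Jt V ε y e) : Jt V ε (x * y) (d * e) := by
  obtain ⟨x', h1, h2⟩ := h
  obtain ⟨y', h3, h4⟩ := h'
  refine ⟨algebraMap N N₁ d.fst * y' + algebraMap N N₁ e.fst * x' + ε * (x' * y'), ?_, ?_⟩
  · rw [fst_mul, map_mul, h1, h3]
    ring
  · rw [snd_mul, smul_eq_mul, MulOpposite.smul_eq_mul_unop, MulOpposite.unop_op]
    have h5 := (((V.val_const d.fst).mul h4).add ((V.val_const e.fst).mul h2)).add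
      (hε.mul (h2.mul h4))
    rw [zero_mul, add_zero] at h5
    rw [mul_comm d.snd]
    exact h5

theorem Jt.pow (hε : V.Val ε 0) (h : Jt V ε x d) (n : ℕ) : Jt V ε (x ^ n) (d ^ n) := by
  induction n with
  | zero =>
    rw [pow_zero, pow_zero]
    have h1 := Jt.cst (V := V) (ε := ε) (1 : N)
    rwa [map_one, inl_one] at h1
  | succ n ih =>
    rw [pow_succ, pow_succ]
    exact ih.mul hε h

theorem Jt.val (hε : V.Val ε 0) (h : Jt V ε x d) : V.Val x d.fst := by
  obtain ⟨x', h1, h2⟩ := h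
  have h3 := (V.val_const d.fst).add (hε.mul h2)
  rwa [zero_mul, add_zero, ← h1] at h3

/-- Inverses of elements without first order term. -/
theorem Jt.inv (hε : V.Val ε 0) {a b : N} (h : Jt V ε x (inl a + inr b)) (ha : a ≠ 0) :
    Jt V ε x⁻¹ (inl a⁻¹ + inr (-(b / a ^ 2))) := by
  have hv := h.val hε
  rw [fst_add, fst_inl, fst_inr, add_zero] at hv
  have hx : x ≠ 0 := hv.ne_zero ha
  obtain ⟨x', h1, h2⟩ := h
  rw [fst_add, fst_inl, fst_inr, add_zero] at h1
  rw [snd_add, snd_inl, snd_inr, zero_add] at h2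
  have ha' : algebraMap N N₁ a ≠ 0 := (_root_.map_ne_zero _).2 ha
  refine ⟨-(x' * (algebraMap N N₁ a)⁻¹ * x⁻¹), ?_, ?_⟩
  · rw [fst_add, fst_inl, fst_inr, add_zero, map_inv₀]
    field_simp
    linear_combination -h1
  · rw [snd_add, snd_inl, snd_inr, zero_add]
    have h3 := ((h2.mul ((V.val_const a).inv ha)).mul (hv.inv ha)).neg
    have h4 : -(b / a ^ 2) = -(b * a⁻¹ * a⁻¹) := by
      field_simp
    rw [h4]
    exact h3

/-- The jet of a polynomial identity is unique. -/
theorem jet_unique (hε0 : ε ≠ 0) {f : N₁[X]} {a b a' b' : N[X]} {r r' : N₁[X]}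
    (hε : V.Val ε 0) (h1 : f = a.map (algebraMap N N₁) + C ε * r) (h2 : PVal V r b)
    (h3 : f = a'.map (algebraMap N N₁) + C ε * r') (h4 : PVal V r' b') : a = a' ∧ b = b' := by
  have e1 : PVal V f a := by
    have h5 := (PVal.map (P := V) a).add ((PVal.C hε).mul h2)
    rw [C_0, zero_mul, add_zero] at h5
    rw [h1]
    exact h5
  have e2 : PVal V f a' := by
    have h5 := (PVal.map (P := V) a').add ((PVal.C hε).mul h4)
    rw [C_0, zero_mul, add_zero] at h5
    rw [h3]
    exact h5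
  have e3 := e1.unique e2
  refine ⟨e3, ?_⟩
  subst e3
  have e4 : C ε * r = C ε * r' := by
    rw [h1] at h3
    exact add_left_cancel h3
  have e5 : r = r' := mul_left_cancel₀ (C_ne_zero.2 hε0) e4
  subst e5
  exact h2.unique h4

/-- the jet of constants in the algebra of the jets of polynomials -/
noncomputable def jS (hε : V.Val ε 0) (h : Jt V ε x d) : jAlg V hε :=
  ⟨(C x, dmap (cA N) d), by
    obtain ⟨x', h1, h2⟩ := h
    refine ⟨C x', ?_, ?_⟩
    · change C x = (dmap (cA N) d).fst.map (algebraMap N N₁) + C ε * C x'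
      rw [fst_dmap, cA_apply, Polynomial.map_C, h1, C_add, C_mul]
    · change PVal V (C x') (dmap (cA N) d).snd
      rw [snd_dmap, cA_apply]
      exact PVal.C h2⟩

theorem jfst_jS (hε : V.Val ε 0) (h : Jt V ε x d) : jfst hε (jS hε h) = C x := rfl

theorem jsnd_jS (hε : V.Val ε 0) (h : Jt V ε x d) : jsnd hε (jS hε h) = dmap (cA N) d := rfl

end jets

section fam

variable {N N₁ : Type} [Field N] [Algebra ℂ N] [Field N₁] [Algebra ℂ N₁] [Algebra N N₁]
  [IsScalarTower ℂ N N₁] {V : Plc N N₁} {ε : N₁} (P : Par)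

/-- the datum over the dual numbers, with values in polynomials -/
noncomputable def dFP (cd : Fin 13 → DualNumber N) : FP (DualNumber N[X]) :=
  (FP.of cd).map (dmap (cA N))

variable {c₁ : Fin 13 → N₁} {cd : Fin 13 → DualNumber N}

theorem dFP_fst (cd : Fin 13 → DualNumber N) :
    (dFP cd).map (dfst N[X]) = (FP.of fun i => (cd i).fst).map C := by
  unfold dFP
  simp only [FP.map, FP.of, dfst_apply, fst_dmap, cA_apply]

theorem dFP_eval (cd : Fin 13 → DualNumber N) (t : N) :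
    (dFP cd).map (dmap (eA t)) = FP.of cd := by
  have h : ∀ d : DualNumber N, dmap (eA t) (dmap (cA N) d) = d := by
    intro d
    apply TrivSqZeroExt.ext
    · rw [fst_dmap, fst_dmap, cA_apply, eA_apply, eval_C]
    · rw [snd_dmap, snd_dmap, cA_apply, eA_apply, eval_C]
  unfold dFP
  simp only [FP.map, FP.of, h]

/-- **The first order expansion of `Δ`.** -/
theorem jet_dlt (hε : V.Val ε 0) (h : ∀ i, Jt V ε (c₁ i) (cd i)) :
    ∃ R : N₁[X], ((FP.of c₁).map C).dlt P X 1 =
      (((FP.of fun i => (cd i).fst).map C).dlt P X 1).map (algebraMap N N₁) + C ε * R ∧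
      PVal V R ((dFP cd).dlt P (inl X) 1).snd := by
  let DJ : FP (jAlg V hε) := FP.of fun i => jS hε (h i)
  obtain ⟨r, h1, h2⟩ := jet_of_jAlg (DJ.dlt P (jX hε) 1)
  have e1 : jfst hε (DJ.dlt P (jX hε) 1) = ((FP.of c₁).map C).dlt P X 1 := by
    rw [FP.map_dlt, map_one]
    rfl
  have e2 : jsnd hε (DJ.dlt P (jX hε) 1) = (dFP cd).dlt P (inl X) 1 := by
    rw [FP.map_dlt, map_one]
    rfl
  have e3 : ((dFP cd).dlt P (inl X) 1).fst = ((FP.of fun i => (cd i).fst).map C).dlt P X 1 := by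
    have h3 := (dFP cd).map_dlt P (dfst N[X]) (inl X) 1
    rw [dFP_fst, map_one] at h3
    exact h3
  rw [e1, e2, e3] at h1
  rw [e2] at h2
  exact ⟨r, h1, h2⟩

/-- **The first order expansion of `ν`.** -/
theorem jet_nu (hε : V.Val ε 0) (h : ∀ i, Jt V ε (c₁ i) (cd i)) :
    ∃ R : N₁[X], ((FP.of c₁).map C).nu P X 1 =
      (((FP.of fun i => (cd i).fst).map C).nu P X 1).map (algebraMap N N₁) + C ε * R ∧
      PVal V R ((dFP cd).nu P (inl X) 1).snd := by
  let DJ : FP (jAlg V hε) := FP.of fun i => jS hε (h i)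
  obtain ⟨r, h1, h2⟩ := jet_of_jAlg (DJ.nu P (jX hε) 1)
  have e1 : jfst hε (DJ.nu P (jX hε) 1) = ((FP.of c₁).map C).nu P X 1 := by
    rw [FP.map_nu, map_one]
    rfl
  have e2 : jsnd hε (DJ.nu P (jX hε) 1) = (dFP cd).nu P (inl X) 1 := by
    rw [FP.map_nu, map_one]
    rfl
  have e3 : ((dFP cd).nu P (inl X) 1).fst = ((FP.of fun i => (cd i).fst).map C).nu P X 1 := by
    have h3 := (dFP cd).map_nu P (dfst N[X]) (inl X) 1
    rw [dFP_fst, map_one] at h3
    exact h3
  rw [e1, e2, e3] at h1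
  rw [e2] at h2
  exact ⟨r, h1, h2⟩

/-- The first order expansion of `δ ^ 3 (S ^ 2 - B)` over a constant `y0`. -/
theorem jet_hY (hε : V.Val ε 0) (h : ∀ i, Jt V ε (c₁ i) (cd i)) (y0 : N) :
    ∃ R : N₁[X], ((FP.of c₁).map C).hY P X 1 (C (algebraMap N N₁ y0)) =
      (((FP.of fun i => (cd i).fst).map C).hY P X 1 (C y0)).map (algebraMap N N₁) + C ε * R ∧
      PVal V R ((dFP cd).hY P (inl X) 1 (inl (C y0))).snd := by
  let DJ : FP (jAlg V hε) := FP.of fun i => jS hε (h i)
  obtain ⟨r, h1, h2⟩ := jet_of_jAlg (DJ.hY P (jX hε) 1 (jC hε y0))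
  have e1 : jfst hε (DJ.hY P (jX hε) 1 (jC hε y0)) =
      ((FP.of c₁).map C).hY P X 1 (C (algebraMap N N₁ y0)) := by
    rw [FP.map_hY, map_one]
    rfl
  have e2 : jsnd hε (DJ.hY P (jX hε) 1 (jC hε y0)) = (dFP cd).hY P (inl X) 1 (inl (C y0)) := by
    rw [FP.map_hY, map_one]
    rfl
  have e3 : ((dFP cd).hY P (inl X) 1 (inl (C y0))).fst =
      ((FP.of fun i => (cd i).fst).map C).hY P X 1 (C y0) := by
    have h3 := (dFP cd).map_hY P (dfst N[X]) (inl X) 1 (inl (C y0))
    rw [dFP_fst, map_one] at h3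
    exact h3
  rw [e1, e2, e3] at h1
  rw [e2] at h2
  exact ⟨r, h1, h2⟩

/-- The values of the second components. -/
theorem eval_dlt (cd : Fin 13 → DualNumber N) (t : N) :
    ((dFP cd).dlt P (inl X) 1).snd.eval t = ((FP.of cd).dlt P (inl t) 1).snd := by
  have h := (dFP cd).map_dlt P (dmap (eA t)) (inl X) 1
  rw [dFP_eval, map_one, dmap_inl, eA_apply, eval_X] at h
  rw [← h, snd_dmap, eA_apply]

theorem eval_nu (cd : Fin 13 → DualNumber N) (t : N) :
    ((dFP cd).nu P (inl X) 1).snd.eval t = ((FP.of cd).nu P (inl t) 1).snd := by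
  have h := (dFP cd).map_nu P (dmap (eA t)) (inl X) 1
  rw [dFP_eval, map_one, dmap_inl, eA_apply, eval_X] at h
  rw [← h, snd_dmap, eA_apply]

theorem eval_hY (cd : Fin 13 → DualNumber N) (t y0 : N) :
    ((dFP cd).hY P (inl X) 1 (inl (C y0))).snd.eval t =
      ((FP.of cd).hY P (inl t) 1 (inl y0)).snd := by
  have h := (dFP cd).map_hY P (dmap (eA t)) (inl X) 1 (inl (C y0))
  rw [dFP_eval, map_one, dmap_inl, dmap_inl, eA_apply, eA_apply, eval_X, eval_C] at h
  rw [← h, snd_dmap, eA_apply]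

/-- **The determinant** at `t`: if `δ ^ 3 (S ^ 2 - B)` is of degree at most one in `Y` for the
moving member, it is the first order term of `δ ^ 3 (S ^ 2 - B)` at `y0`. -/
theorem det_eq (hε : V.Val ε 0) (hε0 : ε ≠ 0) (h : ∀ i, Jt V ε (c₁ i) (cd i)) (y0 : N)
    (hH : ((FP.of c₁).map C).hY P X 1 (C (algebraMap N N₁ y0)) =
      C (algebraMap N N₁ y0) * ((FP.of c₁).map C).dlt P X 1 - ((FP.of c₁).map C).nu P X 1)
    (t : N) :
    y0 * ((dFP cd).dlt P (inl X) 1).snd.eval t - ((dFP cd).nu P (inl X) 1).snd.eval t =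
      ((FP.of cd).hY P (inl t) 1 (inl y0)).snd := by
  obtain ⟨R1, a1, a2⟩ := jet_dlt P hε h
  obtain ⟨R2, b1, b2⟩ := jet_nu P hε h
  obtain ⟨R3, c1, c2⟩ := jet_hY P hε h y0
  have e1 : ((FP.of c₁).map C).hY P X 1 (C (algebraMap N N₁ y0)) =
      (C y0 * ((FP.of fun i => (cd i).fst).map C).dlt P X 1 -
        ((FP.of fun i => (cd i).fst).map C).nu P X 1).map (algebraMap N N₁) +
        C ε * (C (algebraMap N N₁ y0) * R1 - R2) := by
    rw [hH, a1, b1, Polynomial.map_sub, Polynomial.map_mul, Polynomial.map_C]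
    ring
  have e2 : PVal V (C (algebraMap N N₁ y0) * R1 - R2)
      (C y0 * ((dFP cd).dlt P (inl X) 1).snd - ((dFP cd).nu P (inl X) 1).snd) :=
    ((PVal.C (V.val_const y0)).mul a2).sub b2
  obtain ⟨-, e3⟩ := jet_unique hε0 hε c1 c2 e1 e2
  rw [← eval_hY, e3, eval_sub, eval_mul, eval_C]

end fam

end Vale.Agent.P297.H860.Z2
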