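import Vale.Agent.P297.H424.Z2.Main
import Vale.Agent.P297.H55.Z2.Nrm

/-!
The main theorem from the blocks, with all that is known on the lines over `y` which are chords:
the leading coefficient of `Σ` is `-(p1 ^ 2 - r1 ^ 2)`, the equation of the surface is of degree
two on the line and its two roots give good points.
-/

set_option linter.unusedSectionVars false
set_option linter.unusedVariables false

open Polynomial

namespace Vale.Agent.P297.Z2

open Vale.Agent.P297 Vale.Agent.P297.Gen Vale.Agent.P297.H72 Vale.Agent.P297.H839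
open Vale.Agent.P297.H600
open Vale.Agent.P297.H160.Z2Irr

section

variable {K : Type} [Field K] [Algebra ℂ K] {N : Type} [Field N] [Algebra ℂ N]

/-- **A line of `T_l` over `y` which is a chord of the curve over `y`.** -/
structure YGood (P : Par) (l y p0 p1 r0 r1 s0 s1 s2 z z' : N) : Prop where
  line : YLine P l y p0 p1 r0 r1 s0 s1 s2
  sgn : s2 = -(p1 ^ 2 - r1 ^ 2)
  phi : ∃ c : N, c ≠ 0 ∧ tPhi P (C l) (C p0 + C p1 * X) (C r0 + C r1 * X) (C y)
    (C s0 + C s1 * X + C s2 * X ^ 2) = C c * ((X - C z) * (X - C z'))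
  good : H55Z.Good P l (p0 + p1 * z) (r0 + r1 * z) y (s0 + s1 * z + s2 * z ^ 2)
  good' : H55Z.Good P l (p0 + p1 * z') (r0 + r1 * z') y (s0 + s1 * z' + s2 * z' ^ 2)

/-- The cycle of a chord. -/
theorem YGood.cyc_eq {P : Par} (x₀ : Fin 5 → K) {l y p0 p1 r0 r1 s0 s1 s2 z z' : N}
    (h : YGood P l y p0 p1 r0 r1 s0 s1 s2 z z') :
    ycyc P x₀ l y p0 p1 r0 r1 s0 s1 s2 =
      H160.Z2Irr.pt x₀ (toS P l (p0 + p1 * z) (r0 + r1 * z) y (s0 + s1 * z + s2 * z ^ 2)) +
      H160.Z2Irr.pt x₀ (toS P l (p0 + p1 * z') (r0 + r1 * z') y (s0 + s1 * z' + s2 * z' ^ 2)) := by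
  obtain ⟨c, hc, h1⟩ := h.phi
  unfold ycyc cyc
  rw [h1, roots_C_mul _ hc, roots_mul (mul_ne_zero (X_sub_C_ne_zero z) (X_sub_C_ne_zero z')),
    roots_X_sub_C, roots_X_sub_C, Multiset.map_add, Multiset.sum_add, Multiset.map_singleton,
    Multiset.map_singleton, Multiset.sum_singleton, Multiset.sum_singleton]
  simp only [eval_add, eval_mul, eval_C, eval_X, eval_pow]

/-- **[LINK6]** The chords over `y` and six lines through one of the nodes. -/
def Link6S (P : Par) (x₀ : Fin 5 → K) (N : Type) [Field N] [Algebra ℂ N] (m : ℤ) : Prop :=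
  ∀ l y p0 p1 r0 r1 s0 s1 s2 z z' : N, AlgebraicIndependent ℂ ![l, y] →
    YGood P l y p0 p1 r0 r1 s0 s1 s2 z z' →
    ∃ al be : N, ∃ p r s s' : Fin 6 → N, (∀ i, NLine P l al be (p i) (r i) (s i) (s' i)) ∧
      (∀ i, p i ∉ cl0 {l} ∨ r i ∉ cl0 {l}) ∧
      (2 : ℤ) • ycyc P x₀ l y p0 p1 r0 r1 s0 s1 s2 +
        ∑ i, ncyc P x₀ l al be (p i) (r i) (s i) (s' i) ∈ Rel m K N

theorem Link6E.toS {P : Par} {x₀ : Fin 5 → K} {m : ℤ} (h : Link6E P x₀ N m) :
    Link6S P x₀ N m := fun l y p0 p1 r0 r1 s0 s1 s2 _ _ hi hY =>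
  h l y p0 p1 r0 r1 s0 s1 s2 hi hY.line

/-- A multiple of the cycle of a line over the general `y` is a relation. -/
theorem ycyc_rel_s {P : Par} {x₀ : Fin 5 → K} {m n : ℤ} (hT : NodeConst P x₀ N m n)
    (hL : Link6S P x₀ N m) {l y p0 p1 r0 r1 s0 s1 s2 z z' : N}
    (hi : AlgebraicIndependent ℂ ![l, y]) (hY : YGood P l y p0 p1 r0 r1 s0 s1 s2 z z') :
    (2 * n) • ycyc P x₀ l y p0 p1 r0 r1 s0 s1 s2 ∈ Rel m K N := by
  have hl := tr_of_ind hi
  obtain ⟨al, be, p, r, s, s', h1, h2, h3⟩ := hL l y p0 p1 r0 r1 s0 s1 s2 z z' hi hY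
  have h4 := (Rel m K N).zsmul_mem h3 n
  have h5 : n • ∑ i, ncyc P x₀ l al be (p i) (r i) (s i) (s' i) ∈ Rel m K N := by
    rw [Finset.smul_sum]
    exact sum_mem fun i _ => hT l al be _ _ _ _ hl (h1 i) (h2 i)
  have h6 := sub_mem h4 h5
  rw [smul_add, add_sub_cancel_right, smul_smul, mul_comm n 2] at h6
  exact h6

/-- The chords of the canonical curves are lines of `T_l`, with all data. -/
def ChordLineS (P : Par) (x₀ : Fin 5 → K) (N : Type) [Field N] [Algebra ℂ N]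
    (Chord : N → (Fin 5 → N) → (Fin 5 → N) → Prop) : Prop :=
  ∀ l w w', Chord l w w' → AlgebraicIndependent ℂ ![l, w 2] ∧
    ∃ p0 p1 r0 r1 s0 s1 s2 z z', YGood P l (w 2) p0 p1 r0 r1 s0 s1 s2 z z' ∧
      ycyc P x₀ l (w 2) p0 p1 r0 r1 s0 s1 s2 =
        H160.Z2Irr.pt x₀ w + H160.Z2Irr.pt x₀ w'

/-- **The main theorem from the blocks**, for every field dominated by the surface. -/
theorem bloch_of_blocks_s {P : Par} {x₀ : Fin 5 → K} (hx : H160.Z2Irr.IsFF P x₀)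
    {Chord : BigField K 2 → (Fin 5 → BigField K 2) → (Fin 5 → BigField K 2) → Prop}
    {n : ℤ} (hn : n ≠ 0) (hT : NodeConst P x₀ (BigField K 2) 0 n)
    (hL : Link6S P x₀ (BigField K 2) 0) (hC : ChordLineS P x₀ (BigField K 2) Chord)
    (hK : KSide P x₀ (BigField K 2) 0 Chord) {L : Type} [Field L] [Algebra ℂ L]
    (ι : L →ₐ[ℂ] K) : PointsEquivalent L := by
  let φ : K →ₐ[ℂ] BigField K 2 := IsScalarTower.toAlgHom ℂ K (BigField K 2)
  have hn2 : 2 * n ≠ 0 := mul_ne_zero two_ne_zero hn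
  obtain ⟨e, he, h⟩ := hK (2 * n) hn2 (fun l w w' hw => by
    obtain ⟨h1, p0, p1, r0, r1, s0, s1, s2, z, z', h2, h3⟩ := hC l w w' hw
    rw [← h3]
    exact ycyc_rel_s hT hL h1 h2) (fun j => φ (x₀ j)) (hx.genS.map φ)
  rw [pt_phi hx, Finsupp.smul_single, smul_eq_mul, mul_one] at h
  have h1 := Rel.precomp ι h
  rw [Finsupp.mapDomain_single] at h1
  exact C8.pointsEquivalent_of_rel _ he h1

end

end Vale.Agent.P297.Z2
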