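import Vale.Agent.P297.H10.Z2.FamMap
import Vale.Agent.P297.H54.Z2.FDeg
import Vale.Agent.P297.H860.Z2.Jet6
import Vale.Agent.P297.H860.Z2.Sgn

/-!
The special member of the family of the two-sections: the one which runs twice through a line of
`T_l` over `y`.
-/

set_option linter.unusedSectionVars false
set_option linter.unusedVariables false

open Polynomial

namespace Vale.Agent.P297.H860.Z2

open Vale.Agent.P297 Vale.Agent.P297.Gen Vale.Agent.P297.H72 Vale.Agent.P297.H637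
open Vale.Agent.P297.H160.Z2Irr Vale.Agent.P297.Z2

section

variable {N : Type} [Field N] [Algebra ℂ N] {P : Par}
  {l al be y p0 p1 r0 r1 s0 s1 s2 zs ss : N}

/-- **The special member.** -/
noncomputable def spD (P : Par) (l al be y p0 p1 r0 r1 s0 s1 s2 zs ss : N) : FP N where
  l := l
  al := al
  be := be
  ps := p0 + p1 * zs - al * y
  rs := r0 + r1 * zs + be * y
  ss := ss
  k1 := p1
  k2 := r1
  a := 2 * l ^ 2 * (p0 + p1 * zs - al * y - (ntd P l al be).pn +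
      (r0 + r1 * zs + be * y - (ntd P l al be).rn)) * (p1 + r1) +
    8 * al * be * (p0 + p1 * zs - al * y + (r0 + r1 * zs + be * y)) * (p1 + r1) +
    4 * (ntd P l al be).kp * p1 + 4 * (ntd P l al be).kr * r1
  b := (l ^ 2 + 4 * al * be) * (p1 + r1) ^ 2
  b1 := s1 + 2 * s2 * zs + 2 * ((p0 + p1 * zs - al * y) * p1 - (r0 + r1 * zs + be * y) * r1)
  c0 := s0 + s1 * zs + s2 * zs ^ 2 + (p0 + p1 * zs - al * y) ^ 2 - (r0 + r1 * zs + be * y) ^ 2
  d := -y

theorem spD_base (hn : IsNode P l al be)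
    (hs : ss ^ 2 = (ntd P l al be).B2 (p0 + p1 * zs - al * y) (r0 + r1 * zs + be * y)) :
    (spD P l al be y p0 p1 r0 r1 s0 s1 s2 zs ss).Base P where
  node := hn
  hs := hs
  ha := rfl
  hb := rfl

/-- the parameter of the point of the line -/
noncomputable def spz (D : FP N) (zs u : N) : N := zs + D.ht u 1 / D.dl u 1

variable {u : N}

theorem sp_p (hd : (spD P l al be y p0 p1 r0 r1 s0 s1 s2 zs ss).dl u 1 ≠ 0) :
    al * y + (spD P l al be y p0 p1 r0 r1 s0 s1 s2 zs ss).pb u =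
      p0 + p1 * spz (spD P l al be y p0 p1 r0 r1 s0 s1 s2 zs ss) zs u := by
  set D := spD P l al be y p0 p1 r0 r1 s0 s1 s2 zs ss with hD
  have e : D.pb u = D.ps + D.k1 * (D.ht u 1 / D.dl u 1) := by
    unfold FP.pb FP.pt
    field_simp
  rw [e]
  unfold spz
  change al * y + (p0 + p1 * zs - al * y + p1 * (D.ht u 1 / D.dl u 1)) = _
  ring

theorem sp_r (hd : (spD P l al be y p0 p1 r0 r1 s0 s1 s2 zs ss).dl u 1 ≠ 0) :
    -be * y + (spD P l al be y p0 p1 r0 r1 s0 s1 s2 zs ss).rb u =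
      r0 + r1 * spz (spD P l al be y p0 p1 r0 r1 s0 s1 s2 zs ss) zs u := by
  set D := spD P l al be y p0 p1 r0 r1 s0 s1 s2 zs ss with hD
  have e : D.rb u = D.rs + D.k2 * (D.ht u 1 / D.dl u 1) := by
    unfold FP.rb FP.rt
    field_simp
  rw [e]
  unfold spz
  change -be * y + (r0 + r1 * zs + be * y + r1 * (D.ht u 1 / D.dl u 1)) = _
  ring

theorem sp_S (hsg : s2 = -(p1 ^ 2 - r1 ^ 2))
    (hd : (spD P l al be y p0 p1 r0 r1 s0 s1 s2 zs ss).dl u 1 ≠ 0) :
    (spD P l al be y p0 p1 r0 r1 s0 s1 s2 zs ss).sb u * y +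
      (spD P l al be y p0 p1 r0 r1 s0 s1 s2 zs ss).om u =
      s0 + s1 * spz (spD P l al be y p0 p1 r0 r1 s0 s1 s2 zs ss) zs u +
        s2 * spz (spD P l al be y p0 p1 r0 r1 s0 s1 s2 zs ss) zs u ^ 2 := by
  set D := spD P l al be y p0 p1 r0 r1 s0 s1 s2 zs ss with hD
  obtain ⟨h, hh⟩ : ∃ h, h = D.ht u 1 / D.dl u 1 := ⟨_, rfl⟩
  have e1 : D.pb u = D.ps + D.k1 * h := by
    rw [hh]
    unfold FP.pb FP.pt
    field_simp
  have e2 : D.rb u = D.rs + D.k2 * h := by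
    rw [hh]
    unfold FP.rb FP.rt
    field_simp
  have e3 : D.wt u 1 / D.dl u 1 = D.b1 * h + D.c0 + D.d * D.sb u := by
    rw [hh]
    unfold FP.wt FP.sb
    field_simp
  unfold FP.om spz
  rw [e1, e2, e3, ← hh]
  change D.sb u * y + ((s1 + 2 * s2 * zs + 2 * ((p0 + p1 * zs - al * y) * p1 -
    (r0 + r1 * zs + be * y) * r1)) * h + (s0 + s1 * zs + s2 * zs ^ 2 +
      (p0 + p1 * zs - al * y) ^ 2 - (r0 + r1 * zs + be * y) ^ 2) + -y * D.sb u -
      ((p0 + p1 * zs - al * y + p1 * h) ^ 2 - (r0 + r1 * zs + be * y + r1 * h) ^ 2)) = _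
  rw [hsg]
  ring

/-- The values of the branch quartic on a line over `y`. -/
theorem yline_at (hY : YLine P l y p0 p1 r0 r1 s0 s1 s2) (z : N) :
    tB P l (p0 + p1 * z) (r0 + r1 * z) y = (s0 + s1 * z + s2 * z ^ 2) ^ 2 := by
  have h1 := congrArg (eval z) hY.eq
  have h2 := map_tB P (eA z) (C l) (C p0 + C p1 * X) (C r0 + C r1 * X) (C y)
  simp only [eA_apply, eval_add, eval_mul, eval_C, eval_X] at h2
  rw [h2] at h1
  rw [h1]
  simp only [eval_add, eval_mul, eval_C, eval_X, eval_pow]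

theorem sp_hY (hsg : s2 = -(p1 ^ 2 - r1 ^ 2)) (hY : YLine P l y p0 p1 r0 r1 s0 s1 s2)
    (hd : (spD P l al be y p0 p1 r0 r1 s0 s1 s2 zs ss).dl u 1 ≠ 0) :
    (spD P l al be y p0 p1 r0 r1 s0 s1 s2 zs ss).hY P u 1 y = 0 := by
  rw [FP.hY_eq hd, sp_S hsg hd]
  change _ * (_ - tB P l (al * y + _) (-be * y + _) y) = 0
  rw [sp_p hd, sp_r hd, yline_at hY, sub_self, mul_zero]

/-- The equation of the surface on the line. -/
theorem sp_gY (hsg : s2 = -(p1 ^ 2 - r1 ^ 2)) (hY : YLine P l y p0 p1 r0 r1 s0 s1 s2)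
    (hd : (spD P l al be y p0 p1 r0 r1 s0 s1 s2 zs ss).dl u 1 ≠ 0) :
    (spD P l al be y p0 p1 r0 r1 s0 s1 s2 zs ss).gY P u 1 y =
      (spD P l al be y p0 p1 r0 r1 s0 s1 s2 zs ss).dl u 1 ^ 2 * (2 * tPhi P l
        (p0 + p1 * spz (spD P l al be y p0 p1 r0 r1 s0 s1 s2 zs ss) zs u)
        (r0 + r1 * spz (spD P l al be y p0 p1 r0 r1 s0 s1 s2 zs ss) zs u) y
        (s0 + s1 * spz (spD P l al be y p0 p1 r0 r1 s0 s1 s2 zs ss) zs u +
          s2 * spz (spD P l al be y p0 p1 r0 r1 s0 s1 s2 zs ss) zs u ^ 2)) := by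
  rw [FP.gY_eq hd, sp_S hsg hd]
  change _ * (2 * tPhi P l (al * y + _) (-be * y + _) y _ + _ *
    (_ - tB P l (al * y + _) (-be * y + _) y)) = _
  rw [sp_p hd, sp_r hd, yline_at hY, sub_self, mul_zero, add_zero]

variable [CharZero N]

theorem sp_nu (hM : P.M1 = 0) (hn : IsNode P l al be)
    (hs : ss ^ 2 = (ntd P l al be).B2 (p0 + p1 * zs - al * y) (r0 + r1 * zs + be * y))
    (hsg : s2 = -(p1 ^ 2 - r1 ^ 2)) (hY : YLine P l y p0 p1 r0 r1 s0 s1 s2)
    (hd : (spD P l al be y p0 p1 r0 r1 s0 s1 s2 zs ss).dl u 1 ≠ 0) :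
    (spD P l al be y p0 p1 r0 r1 s0 s1 s2 zs ss).nu P u 1 =
      y * (spD P l al be y p0 p1 r0 r1 s0 s1 s2 zs ss).dlt P u 1 := by
  have h1 := H54.Z2.HP_eq (P := P) hM (spD_base (s0 := s0) (s1 := s1) (s2 := s2) hn hs) hd
  have h2 := FP.eval_HP (P := P) (D := spD P l al be y p0 p1 r0 r1 s0 s1 s2 zs ss) u y
  rw [sp_hY hsg hY hd, h1, eval_sub, eval_mul, eval_C, eval_X, eval_C] at h2
  linear_combination -h2

/-- The values of `Δ` and `ν` as polynomials. -/
theorem eval_dltC (D : FP N) (u : N) : ((D.map C).dlt P X 1).eval u = D.dlt P u 1 := by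
  have h := (D.map C).map_dlt P (eA u) X 1
  rw [eA_apply, eA_apply, eval_X, map_one] at h
  have e : (D.map C).map (eA u) = D := by
    simp only [FP.map, eA_apply, eval_C]
  rw [e] at h
  exact h

theorem eval_nuC (D : FP N) (u : N) : ((D.map C).nu P X 1).eval u = D.nu P u 1 := by
  have h := (D.map C).map_nu P (eA u) X 1
  rw [eA_apply, eA_apply, eval_X, map_one] at h
  have e : (D.map C).map (eA u) = D := by
    simp only [FP.map, eA_apply, eval_C]
  rw [e] at h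
  exact h

/-- Polynomials which agree outside of `δ = 0` are equal. -/
theorem eq_of_dl (D : FP N) {f g : N[X]} (h : ∀ u, D.dl u 1 ≠ 0 → f.eval u = g.eval u) :
    f = g := by
  have h1 : (f - g) * (X ^ 2 - C D.b) = 0 := by
    apply Polynomial.funext
    intro u
    rw [eval_mul, eval_sub, eval_sub, eval_pow, eval_X, eval_C, eval_zero]
    by_cases hd : D.dl u 1 = 0
    · have : u ^ 2 - D.b = 0 := by
        rw [← hd]
        unfold FP.dl
        ring
      rw [this, mul_zero]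
    · rw [h u hd, sub_self, zero_mul]
  have h2 : (X ^ 2 - C D.b : N[X]) ≠ 0 := X_pow_sub_C_ne_zero (by norm_num) _
  exact sub_eq_zero.1 ((mul_eq_zero.1 h1).resolve_right h2)

/-- **`ν = y Δ` at the special member.** -/
theorem sp_nu_eq (hM : P.M1 = 0) (hn : IsNode P l al be)
    (hs : ss ^ 2 = (ntd P l al be).B2 (p0 + p1 * zs - al * y) (r0 + r1 * zs + be * y))
    (hsg : s2 = -(p1 ^ 2 - r1 ^ 2)) (hY : YLine P l y p0 p1 r0 r1 s0 s1 s2) :
    ((spD P l al be y p0 p1 r0 r1 s0 s1 s2 zs ss).map C).nu P X 1 =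
      C y * ((spD P l al be y p0 p1 r0 r1 s0 s1 s2 zs ss).map C).dlt P X 1 := by
  refine eq_of_dl (spD P l al be y p0 p1 r0 r1 s0 s1 s2 zs ss) fun u hd => ?_
  rw [eval_mul, eval_C, eval_nuC, eval_dltC]
  exact sp_nu hM hn hs hsg hY hd

/-- **`δ ^ 3 (S ^ 2 - B)` of a nearby member** is of degree one in `Y`. -/
theorem hY_line (hM : P.M1 = 0) {D : FP N} (hb : D.Base P) (Y : N) :
    (D.map C).hY P X 1 (C Y) = C Y * (D.map C).dlt P X 1 - (D.map C).nu P X 1 := by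
  refine eq_of_dl D fun u hd => ?_
  have h := (D.map C).map_hY P (eA u) X 1 (C Y)
  rw [eA_apply, eA_apply, eval_X, map_one, eA_apply, eval_C] at h
  have e : (D.map C).map (eA u) = D := by
    simp only [FP.map, eA_apply, eval_C]
  rw [e] at h
  rw [h, eval_sub, eval_mul, eval_C, eval_nuC, eval_dltC, ← FP.eval_HP,
    H54.Z2.HP_eq (P := P) hM hb hd, eval_sub, eval_mul, eval_C, eval_X, eval_C]
  ring

end

end Vale.Agent.P297.H860.Z2
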