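import Vale.Agent.P297.H860.Z2.SpecM
import Vale.Agent.P297.H581.Z2.Tan
import Vale.Agent.P297.H10.Z2.Const6

/-!
The direction at the special member: the first order terms of `Δ` and `ν` along a place, and a
direction for which they are in general position at the zeros of `Δ`.
-/

set_option linter.unusedSectionVars false
set_option linter.unusedVariables false
set_option linter.unusedSimpArgs false

open Polynomial TrivSqZeroExt

namespace Vale.Agent.P297.H860.Z2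

open Vale.Agent.P297 Vale.Agent.P297.Gen Vale.Agent.P297.H72 Vale.Agent.P297.H637
open Vale.Agent.P297.H160.Z2Irr Vale.Agent.P297.Z2

/-! ### The jets of the coordinates -/

section jets

variable {N N₁ : Type} [Field N] [Algebra ℂ N] [Field N₁] [Algebra ℂ N₁] [Algebra N N₁]
  [IsScalarTower ℂ N N₁] {V : Plc N N₁} {ε : N₁} {P : Par}

/-- constants up to higher order -/
def Jc (V : Plc N N₁) (ε : N₁) (x : N₁) (a : N) : Prop := Jt V ε x (inl a)

variable {x y : N₁} {a b : N}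

theorem Jc.jt (h : Jc V ε x a) : Jt V ε x (inl a) := h

theorem Jc.cst (a : N) : Jc V ε (algebraMap N N₁ a) a := Jt.cst a

theorem Jc.alg (z : ℂ) : Jc V ε (algebraMap ℂ N₁ z) (algebraMap ℂ N z) := by
  rw [IsScalarTower.algebraMap_apply ℂ N N₁]
  exact Jt.cst _

theorem Jc.one : Jc V ε (1 : N₁) (1 : N) := by
  have h := Jc.cst (V := V) (ε := ε) (1 : N)
  rwa [map_one] at h

theorem Jc.ofNat (n : ℕ) [n.AtLeastTwo] : Jc V ε (OfNat.ofNat n : N₁) (OfNat.ofNat n : N) := by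
  have h := Jc.cst (V := V) (ε := ε) (OfNat.ofNat n : N)
  rwa [map_ofNat] at h

theorem Jc.mv (a : N) {y : N₁} (hy : V.Val y 0) : Jc V ε (algebraMap N N₁ a + ε * y) a := by
  have h := Jt.mv (ε := ε) a hy
  rwa [inr_zero, add_zero] at h

theorem Jc.add (h : Jc V ε x a) (h' : Jc V ε y b) : Jc V ε (x + y) (a + b) := by
  unfold Jc
  rw [inl_add]
  exact Jt.add h h'

theorem Jc.neg (h : Jc V ε x a) : Jc V ε (-x) (-a) := by
  unfold Jc
  rw [inl_neg]
  exact Jt.neg h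

theorem Jc.sub (h : Jc V ε x a) (h' : Jc V ε y b) : Jc V ε (x - y) (a - b) := by
  unfold Jc
  rw [inl_sub]
  exact Jt.sub h h'

theorem Jc.mul (hε : V.Val ε 0) (h : Jc V ε x a) (h' : Jc V ε y b) : Jc V ε (x * y) (a * b) := by
  unfold Jc
  rw [inl_mul]
  exact Jt.mul hε h h'

theorem Jc.pow (hε : V.Val ε 0) (h : Jc V ε x a) (n : ℕ) : Jc V ε (x ^ n) (a ^ n) := by
  unfold Jc
  rw [← inl_pow]
  exact Jt.pow hε h n

theorem Jc.inv (hε : V.Val ε 0) (h : Jc V ε x a) (ha : a ≠ 0) : Jc V ε x⁻¹ a⁻¹ := by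
  have h1 : Jt V ε x (inl a + inr 0) := by
    rw [inr_zero, add_zero]
    exact h
  have h2 := Jt.inv hε h1 ha
  rwa [zero_div, neg_zero, inr_zero, add_zero] at h2

theorem Jc.div (hε : V.Val ε 0) (h : Jc V ε x a) (h' : Jc V ε y b) (hb : b ≠ 0) :
    Jc V ε (x / y) (a / b) := by
  rw [div_eq_mul_inv, div_eq_mul_inv]
  exact h.mul hε (h'.inv hε hb)

/-- the letters of a node are constant up to higher order -/
structure JTD (V : Plc N N₁) (ε : N₁) (d₁ : TD N₁) (d : TD N) : Prop where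
  al : Jc V ε d₁.al d.al
  be : Jc V ε d₁.be d.be
  l : Jc V ε d₁.l d.l
  pn : Jc V ε d₁.pn d.pn
  rn : Jc V ε d₁.rn d.rn
  kp : Jc V ε d₁.kp d.kp
  kr : Jc V ε d₁.kr d.kr
  w0 : Jc V ε d₁.w0 d.w0

theorem jtd_ntd (hε : V.Val ε 0) {l₁ al₁ be₁ : N₁} {l al be : N} (hl : Jc V ε l₁ l)
    (ha : Jc V ε al₁ al) (hb : Jc V ε be₁ be) (ha0 : al ≠ 0) (hb0 : be ≠ 0) :
    JTD V ε (ntd P l₁ al₁ be₁) (ntd P l al be) := by
  have c := fun z => Jc.alg (V := V) (ε := ε) z
  have h2 : Jc V ε (2 : N₁) (2 : N) := Jc.ofNat 2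
  have hA := (hb.mul hε (c P.P2)).div hε ha ha0
  have hC := (ha.mul hε (c P.P0)).div hε hb hb0
  refine ⟨ha, hb, hl, (ha.mul hε (c P.u)).sub hC, (hb.mul hε (c P.v)).neg.sub hA, ?_, ?_, ?_⟩
  · exact ((ha.mul hε hb).mul hε ((c P.Q0).sub (hl.mul hε ((c P.u).add (c P.v))))).add
      ((hl.mul hε (hb.sub ha)).mul hε hA)
  · exact ((ha.mul hε hb).mul hε ((c P.Q1).sub (hl.mul hε ((c P.u).add (c P.v))))).add
      ((hl.mul hε (hb.sub ha)).mul hε hC)
  · exact ((((((ha.mul hε hb).mul hε ((c P.m).sub (hl.mul hε (c P.n)))).neg).add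
      ((((h2.mul hε hl).mul hε (hb.sub ha)).mul hε hA).mul hε hC)).sub
      (((((hl.mul hε (hb.sub ha)).mul hε ha).mul hε hb).mul hε (c P.u)).mul hε (c P.v))).sub
      ((((hl.mul hε ha).mul hε ((h2.mul hε hb).sub ha)).mul hε hA).mul hε (c P.u))).sub
      ((((hl.mul hε hb).mul hε ((h2.mul hε ha).sub hb)).mul hε hC).mul hε (c P.v))

theorem JTD.psf (hε : V.Val ε 0) [CharZero N] {d₁ : TD N₁} {d : TD N} (h : JTD V ε d₁ d)
    (hk : d.kp ≠ d.kr) {W₁ s₁ : N₁} {W s σ : N} (hW : Jc V ε W₁ W)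
    (hs : Jt V ε s₁ (inl s + inr σ)) :
    Jt V ε (d₁.psf W₁ s₁) (inl (d.psf W s) + inr (2 * s * σ / (4 * (d.kp - d.kr)))) := by
  have h4 : Jc V ε (4 : N₁) (4 : N) := Jc.ofNat 4
  have hk' : 4 * (d.kp - d.kr) ≠ 0 := mul_ne_zero (by norm_num) (sub_ne_zero.2 hk)
  have h1 := ((hs.pow hε 2).sub ((h.l.pow hε 2).mul hε (((hW.sub h.pn).sub h.rn).pow hε 2)).jt).sub
    (h4.mul hε ((((h.al.mul hε h.be).mul hε (hW.pow hε 2)).add (h.kr.mul hε hW)).add h.w0)).jt
  have h2 := h1.mul hε ((h4.mul hε (h.kp.sub h.kr)).inv hε hk').jt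
  unfold TD.psf
  rw [div_eq_mul_inv]
  refine (congrArg (Jt V ε _) ?_).mp h2
  apply TrivSqZeroExt.ext
  · simp only [fst_mul, fst_sub, fst_add, fst_inl, fst_inr, fst_pow, add_zero, div_eq_mul_inv]
  · simp only [pow_two, snd_mul, snd_sub, snd_add, fst_mul, fst_sub, fst_add, fst_inl, fst_inr,
      snd_inl, snd_inr, add_zero, zero_add, smul_eq_mul, MulOpposite.smul_eq_mul_unop,
      MulOpposite.unop_op, mul_zero, sub_zero]
    field_simp
    ring

/-- the slope of `p` in the direction `σ` of `s` -/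
noncomputable def pi0 (P : Par) (w : Fin 8 → N) (σ : N) : N :=
  2 * w 2 * σ / (4 * ((ndt P (w 0)).kp - (ndt P (w 0)).kr))

/-- **The direction** -/
def wdir (σ : N) : Fin 8 → N := ![0, 0, σ, 0, 0, 0, 1, 0]

/-- the jets of the coordinates -/
noncomputable def cdir (P : Par) (w : Fin 8 → N) (σ : N) : Fin 13 → DualNumber N :=
  ![inl (cpar P w 0), inl (cpar P w 1), inl (cpar P w 2), inl (cpar P w 3) + inr (pi0 P w σ),
    inl (cpar P w 4) + inr (-pi0 P w σ), inl (cpar P w 5) + inr σ, inl (cpar P w 6),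
    inl (cpar P w 7), inl (cpar P w 8), inl (cpar P w 9), inl (cpar P w 10),
    inl (cpar P w 11) + inr 1, inl (cpar P w 12)]

theorem cdir_fst (w : Fin 8 → N) (σ : N) : (fun i => (cdir P w σ i).fst) = cpar P w := by
  funext i
  fin_cases i <;>
    simp only [cdir, Fin.isValue, Fin.zero_eta, Fin.mk_one, Fin.reduceFinMk, Matrix.cons_val_zero,
      Matrix.cons_val_one, Matrix.cons_val, fst_add, fst_inl, fst_inr, add_zero]

/-- **The jets of the coordinates.** -/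
theorem jt_cpar [CharZero N] (h : NC P) (hε : V.Val ε 0) {w : Fin 8 → N}
    (ht : Transcendental ℂ (w 0)) {σ : N} {y : Fin 8 → N₁} (hy : ∀ i, V.Val (y i) (wdir σ i))
    (i : Fin 13) : Jt V ε (cpar P (fun i => algebraMap N N₁ (w i) + ε * y i) i) (cdir P w σ i) := by
  have hD := tD_ne h ht
  obtain ⟨w₁, hw₁⟩ : ∃ w₁ : Fin 8 → N₁, w₁ = fun i => algebraMap N N₁ (w i) + ε * y i := ⟨_, rfl⟩
  have v0 : Jc V ε (w₁ 0) (w 0) := by rw [hw₁]; exact Jc.mv _ (hy 0)
  have v1 : Jc V ε (w₁ 1) (w 1) := by rw [hw₁]; exact Jc.mv _ (hy 1)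
  have v2 : Jt V ε (w₁ 2) (inl (w 2) + inr σ) := by rw [hw₁]; exact Jt.mv _ (hy 2)
  have v3 : Jc V ε (w₁ 3) (w 3) := by rw [hw₁]; exact Jc.mv _ (hy 3)
  have v4 : Jc V ε (w₁ 4) (w 4) := by rw [hw₁]; exact Jc.mv _ (hy 4)
  have v5 : Jc V ε (w₁ 5) (w 5) := by rw [hw₁]; exact Jc.mv _ (hy 5)
  have v6 : Jt V ε (w₁ 6) (inl (w 6) + inr 1) := by rw [hw₁]; exact Jt.mv _ (hy 6)
  have v7 : Jc V ε (w₁ 7) (w 7) := by rw [hw₁]; exact Jc.mv _ (hy 7)
  rw [← hw₁]
  have c := fun z => Jc.alg (V := V) (ε := ε) z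
  have vq : Jc V ε (tq P (w₁ 0)) (tq P (w 0)) :=
    (((c _).mul hε (v0.pow hε 2)).sub ((c _).mul hε v0)).add (c _)
  have vg : Jc V ε (tg P (w₁ 0)) (tg P (w 0)) := v0.mul hε (((c _).mul hε v0).sub (c _))
  have vD : Jc V ε (tD P (w₁ 0)) (tD P (w 0)) := ((Jc.one.sub v0).mul hε vq).add vg
  have vl : Jc V ε (tg P (w₁ 0) / tD P (w₁ 0)) (tg P (w 0) / tD P (w 0)) := vg.div hε vD hD
  have vb : Jc V ε (nbe P (w₁ 0)) (nbe P (w 0)) := vq.div hε vD hD
  have va : Jc V ε (nal P (w₁ 0)) (nal P (w 0)) := v0.mul hε (vq.div hε vD hD)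
  have hn := ndt_node h ht
  have vd : JTD V ε (ndt P (w₁ 0)) (ndt P (w 0)) := jtd_ntd hε vl va vb hn.al0 hn.be0
  have vp := vd.psf hε (kp_ne h ht) v1 v2
  have v22 : Jc V ε (2 : N₁) (2 : N) := Jc.ofNat 2
  have v44 : Jc V ε (4 : N₁) (4 : N) := Jc.ofNat 4
  have va8 : Jc V ε (cpar P w₁ 8) (cpar P w 8) := by
    have e1 : cpar P w₁ 8 = 2 * (ndt P (w₁ 0)).l ^ 2 * (w₁ 3 + w₁ 4) *
        (w₁ 1 - (ndt P (w₁ 0)).pn - (ndt P (w₁ 0)).rn) +
        4 * (2 * (ndt P (w₁ 0)).al * (ndt P (w₁ 0)).be * (w₁ 3 + w₁ 4) * w₁ 1 +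
          (ndt P (w₁ 0)).kp * w₁ 3 + (ndt P (w₁ 0)).kr * w₁ 4) := by
      change (ndt P (w₁ 0)).A2a ((ndt P (w₁ 0)).psf (w₁ 1) (w₁ 2))
        (w₁ 1 - (ndt P (w₁ 0)).psf (w₁ 1) (w₁ 2)) (w₁ 3) (w₁ 4) = _
      unfold TD.A2a
      ring
    have e2 : cpar P w 8 = 2 * (ndt P (w 0)).l ^ 2 * (w 3 + w 4) *
        (w 1 - (ndt P (w 0)).pn - (ndt P (w 0)).rn) +
        4 * (2 * (ndt P (w 0)).al * (ndt P (w 0)).be * (w 3 + w 4) * w 1 +
          (ndt P (w 0)).kp * w 3 + (ndt P (w 0)).kr * w 4) := by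
      change (ndt P (w 0)).A2a ((ndt P (w 0)).psf (w 1) (w 2))
        (w 1 - (ndt P (w 0)).psf (w 1) (w 2)) (w 3) (w 4) = _
      unfold TD.A2a
      ring
    rw [e1, e2]
    exact (((v22.mul hε (vd.l.pow hε 2)).mul hε (v3.add v4)).mul hε
      ((v1.sub vd.pn).sub vd.rn)).add (v44.mul hε ((((((v22.mul hε vd.al).mul hε vd.be).mul hε
        (v3.add v4)).mul hε v1).add (vd.kp.mul hε v3)).add (vd.kr.mul hε v4)))
  have va9 : Jc V ε (cpar P w₁ 9) (cpar P w 9) :=
    (((vd.l.pow hε 2).add ((v44.mul hε vd.al).mul hε vd.be)).mul hε ((v3.add v4).pow hε 2))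
  fin_cases i
  · exact vl
  · exact va
  · exact vb
  · exact vp
  · change Jt V ε (w₁ 1 - (ndt P (w₁ 0)).psf (w₁ 1) (w₁ 2))
      (inl (w 1 - (ndt P (w 0)).psf (w 1) (w 2)) + inr (-pi0 P w σ))
    have h1 := v1.jt.sub vp
    refine (congrArg (Jt V ε _) ?_).mp h1
    unfold pi0
    apply TrivSqZeroExt.ext
    · simp only [fst_sub, fst_add, fst_inl, fst_inr, add_zero]
    · simp only [snd_sub, snd_add, snd_inl, snd_inr, zero_add, zero_sub]
  · exact v2
  · exact v3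
  · exact v4
  · exact va8
  · exact va9
  · exact v5
  · exact v6
  · exact v7

end jets

/-! ### The first order term of `δ ^ 3 (S ^ 2 - B)` -/

section closed

variable {N : Type} [Field N] [Algebra ℂ N] {P : Par}

/-- The first order term of the branch quartic. -/
theorem tB_dual (l p r y p' r' : N) :
    (tB P (inl l : DualNumber N) (inl p + inr p') (inl r + inr r') (inl y)) =
      inl (tB P l p r y) +
        inr (H581.Z2.Bp (dat P y) l p r * p' + H581.Z2.Br (dat P y) l p r * r') := by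
  have h := map_dat P (TrivSqZeroExt.inlAlgHom ℂ N N) y
  change _ = dat P (inl y : DualNumber N) at h
  unfold tB
  rw [← h]
  generalize dat P y = D
  unfold Dat.Bq Dat.K Dat.N Dat.E Dat.F Dat.J0 Dat.J1 H581.Z2.Bp H581.Z2.Br
  unfold Dat.K Dat.N Dat.E Dat.F Dat.J0 Dat.J1
  have e : ∀ x : N, (TrivSqZeroExt.inlAlgHom ℂ N N) x = (inl x : DualNumber N) := fun _ => rfl
  have e2 : (2 : DualNumber N) = inl 2 := rfl
  have e4 : (4 : DualNumber N) = inl 4 := rfl
  simp only [Dat.map, e, e2, e4]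
  apply TrivSqZeroExt.ext
  · simp only [fst_mul, fst_sub, fst_add, fst_inl, fst_inr, fst_pow, add_zero]
  · simp only [pow_two, snd_mul, snd_sub, snd_add, fst_mul, fst_sub, fst_add, fst_inl, fst_inr,
      snd_inl, snd_inr, add_zero, zero_add, smul_eq_mul, MulOpposite.smul_eq_mul_unop,
      MulOpposite.unop_op, mul_zero, sub_zero, zero_mul]
    ring

/-- the moving member over the dual numbers -/
def mvD (D : FP N) (π σ : N) : FP (DualNumber N) :=
  ⟨inl D.l, inl D.al, inl D.be, inl D.ps + inr π, inl D.rs + inr (-π), inl D.ss + inr σ, inl D.k1,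
    inl D.k2, inl D.a, inl D.b, inl D.b1, inl D.c0 + inr 1, inl D.d⟩

variable (D : FP N) (π σ u : N)

theorem mv_dl : (mvD D π σ).dl (inl u) 1 = inl (D.dl u 1) := by
  unfold FP.dl mvD
  apply TrivSqZeroExt.ext
  · simp only [fst_mul, fst_sub, fst_add, fst_inl, fst_inr, fst_pow, add_zero, fst_one]
  · simp only [pow_two, snd_mul, snd_sub, snd_add, fst_mul, fst_sub, fst_add, fst_inl, fst_inr,
      snd_inl, snd_inr, add_zero, zero_add, smul_eq_mul, MulOpposite.smul_eq_mul_unop,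
      MulOpposite.unop_op, mul_zero, sub_zero, zero_mul, fst_one, snd_one]

theorem mv_ht : (mvD D π σ).ht (inl u) 1 = inl (D.ht u 1) + inr (-(2 * σ * u)) := by
  unfold FP.ht mvD
  have e2 : (2 : DualNumber N) = inl 2 := rfl
  rw [e2]
  apply TrivSqZeroExt.ext
  · simp only [fst_mul, fst_sub, fst_add, fst_inl, fst_inr, fst_pow, add_zero, fst_one]
  · simp only [pow_two, snd_mul, snd_sub, snd_add, fst_mul, fst_sub, fst_add, fst_inl, fst_inr,
      snd_inl, snd_inr, add_zero, zero_add, smul_eq_mul, MulOpposite.smul_eq_mul_unop,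
      MulOpposite.unop_op, mul_zero, sub_zero, zero_mul, fst_one, snd_one]
    ring

theorem mv_pt : (mvD D π σ).pt (inl u) 1 =
    inl (D.pt u 1) + inr (π * D.dl u 1 - D.k1 * (2 * σ * u)) := by
  unfold FP.pt
  rw [mv_dl, mv_ht]
  unfold mvD
  apply TrivSqZeroExt.ext
  · simp only [fst_mul, fst_sub, fst_add, fst_inl, fst_inr, fst_pow, add_zero, fst_one]
  · simp only [pow_two, snd_mul, snd_sub, snd_add, fst_mul, fst_sub, fst_add, fst_inl, fst_inr,
      snd_inl, snd_inr, add_zero, zero_add, smul_eq_mul, MulOpposite.smul_eq_mul_unop,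
      MulOpposite.unop_op, mul_zero, sub_zero, zero_mul, fst_one, snd_one]
    ring

theorem mv_rt : (mvD D π σ).rt (inl u) 1 =
    inl (D.rt u 1) + inr (-π * D.dl u 1 - D.k2 * (2 * σ * u)) := by
  unfold FP.rt
  rw [mv_dl, mv_ht]
  unfold mvD
  apply TrivSqZeroExt.ext
  · simp only [fst_mul, fst_sub, fst_add, fst_inl, fst_inr, fst_pow, add_zero, fst_one]
  · simp only [pow_two, snd_mul, snd_sub, snd_add, fst_mul, fst_sub, fst_add, fst_inl, fst_inr,
      snd_inl, snd_inr, add_zero, zero_add, smul_eq_mul, MulOpposite.smul_eq_mul_unop,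
      MulOpposite.unop_op, mul_zero, sub_zero, zero_mul, fst_one, snd_one]
    ring

theorem mv_st : (mvD D π σ).st (inl u) 1 =
    inl (D.st u 1) + inr (-(σ * (u ^ 2 + D.b))) := by
  unfold FP.st mvD
  apply TrivSqZeroExt.ext
  · simp only [fst_mul, fst_sub, fst_add, fst_neg, fst_inl, fst_inr, fst_pow, add_zero, fst_one]
  · simp only [pow_two, snd_mul, snd_sub, snd_add, snd_neg, fst_neg, fst_mul, fst_sub, fst_add,
      fst_inl, fst_inr, snd_inl, snd_inr, add_zero, zero_add, smul_eq_mul,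
      MulOpposite.smul_eq_mul_unop, MulOpposite.unop_op, mul_zero, sub_zero, zero_mul, fst_one,
      snd_one]
    ring

theorem mv_wt : (mvD D π σ).wt (inl u) 1 =
    inl (D.wt u 1) + inr (-(D.b1 * (2 * σ * u)) + D.dl u 1 - D.d * (σ * (u ^ 2 + D.b))) := by
  unfold FP.wt
  rw [mv_dl, mv_ht, mv_st]
  unfold mvD
  apply TrivSqZeroExt.ext
  · simp only [fst_mul, fst_sub, fst_add, fst_neg, fst_inl, fst_inr, fst_pow, add_zero, fst_one]
  · simp only [pow_two, snd_mul, snd_sub, snd_add, snd_neg, fst_neg, fst_mul, fst_sub, fst_add,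
      fst_inl, fst_inr, snd_inl, snd_inr, add_zero, zero_add, smul_eq_mul,
      MulOpposite.smul_eq_mul_unop, MulOpposite.unop_op, mul_zero, sub_zero, zero_mul, fst_one,
      snd_one]
    ring

theorem mv_S1 (y : N) (hd : D.d = -y) : (mvD D π σ).S1 (inl u) 1 (inl y) =
    inl (D.S1 u 1 y) + inr (-(D.b1 * (2 * σ * u)) + D.dl u 1 +
      2 * y * (D.al * (π * D.dl u 1 - D.k1 * (2 * σ * u)) +
        D.be * (-π * D.dl u 1 - D.k2 * (2 * σ * u)))) := by
  unfold FP.S1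
  rw [mv_dl, mv_pt, mv_rt, mv_st, mv_wt]
  unfold mvD
  have e2 : (2 : DualNumber N) = inl 2 := rfl
  rw [e2, hd]
  apply TrivSqZeroExt.ext
  · simp only [fst_mul, fst_sub, fst_add, fst_neg, fst_inl, fst_inr, fst_pow, add_zero, fst_one]
  · simp only [pow_two, snd_mul, snd_sub, snd_add, snd_neg, fst_neg, fst_mul, fst_sub, fst_add,
      fst_inl, fst_inr, snd_inl, snd_inr, add_zero, zero_add, smul_eq_mul,
      MulOpposite.smul_eq_mul_unop, MulOpposite.unop_op, mul_zero, sub_zero, zero_mul, fst_one,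
      snd_one]
    ring

/-- **The first order term of `δ ^ 3 (S ^ 2 - B)`.** -/
theorem mv_hY (y : N) (hd : D.d = -y) (hδ : D.dl u 1 ≠ 0) :
    ((mvD D π σ).hY P (inl u) 1 (inl y)).snd = D.dl u 1 ^ 3 *
      (2 * (D.sb u * y + D.om u) *
        (-(D.b1 * (2 * σ * u / D.dl u 1)) + 1 -
          2 * D.pb u * (π - D.k1 * (2 * σ * u / D.dl u 1)) +
          2 * D.rb u * (-π - D.k2 * (2 * σ * u / D.dl u 1))) -
        (H581.Z2.Bp (dat P y) D.l (D.al * y + D.pb u) (-D.be * y + D.rb u) *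
            (π - D.k1 * (2 * σ * u / D.dl u 1)) +
          H581.Z2.Br (dat P y) D.l (D.al * y + D.pb u) (-D.be * y + D.rb u) *
            (-π - D.k2 * (2 * σ * u / D.dl u 1)))) := by
  obtain ⟨h1, hh⟩ : ∃ h1, h1 = 2 * σ * u / D.dl u 1 := ⟨_, rfl⟩
  have hh' : 2 * σ * u = D.dl u 1 * h1 := by
    rw [hh]
    field_simp
  rw [← hh]
  have e1 : (mvD D π σ).pt (inl u) 1 + (mvD D π σ).al * (mvD D π σ).dl (inl u) 1 * inl y =
      inl (D.dl u 1) * (inl (D.al * y + D.pb u) + inr (π - D.k1 * h1)) := by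
    rw [mv_pt, mv_dl, hh']
    change _ + inl D.al * _ * _ = _
    have h3 := FP.pt_div hδ y
    apply TrivSqZeroExt.ext
    · simp only [fst_mul, fst_sub, fst_add, fst_inl, fst_inr, fst_pow, add_zero, fst_one]
      rw [h3]
      ring
    · simp only [pow_two, snd_mul, snd_sub, snd_add, fst_mul, fst_sub, fst_add, fst_inl, fst_inr,
        snd_inl, snd_inr, add_zero, zero_add, smul_eq_mul, MulOpposite.smul_eq_mul_unop,
        MulOpposite.unop_op, mul_zero, sub_zero, zero_mul, fst_one, snd_one]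
      ring
  have e2 : (mvD D π σ).rt (inl u) 1 - (mvD D π σ).be * (mvD D π σ).dl (inl u) 1 * inl y =
      inl (D.dl u 1) * (inl (-D.be * y + D.rb u) + inr (-π - D.k2 * h1)) := by
    rw [mv_rt, mv_dl, hh']
    change _ - inl D.be * _ * _ = _
    have h3 := FP.rt_div hδ y
    apply TrivSqZeroExt.ext
    · simp only [fst_mul, fst_sub, fst_add, fst_inl, fst_inr, fst_pow, add_zero, fst_one]
      rw [h3]
      ring
    · simp only [pow_two, snd_mul, snd_sub, snd_add, fst_mul, fst_sub, fst_add, fst_inl, fst_inr,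
        snd_inl, snd_inr, add_zero, zero_add, smul_eq_mul, MulOpposite.smul_eq_mul_unop,
        MulOpposite.unop_op, mul_zero, sub_zero, zero_mul, fst_one, snd_one]
      ring
  have e3 : (mvD D π σ).S1 (inl u) 1 (inl y) =
      inl (D.dl u 1) * (inl (D.S1 u 1 y / D.dl u 1) + inr (-(D.b1 * h1) + 1 +
        2 * y * (D.al * (π - D.k1 * h1) + D.be * (-π - D.k2 * h1)))) := by
    rw [mv_S1 D π σ u y hd, hh']
    apply TrivSqZeroExt.ext
    · simp only [fst_mul, fst_sub, fst_add, fst_inl, fst_inr, fst_pow, add_zero, fst_one]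
      field_simp
    · simp only [pow_two, snd_mul, snd_sub, snd_add, fst_mul, fst_sub, fst_add, fst_inl, fst_inr,
        snd_inl, snd_inr, add_zero, zero_add, smul_eq_mul, MulOpposite.smul_eq_mul_unop,
        MulOpposite.unop_op, mul_zero, sub_zero, zero_mul, fst_one, snd_one]
      ring
  unfold FP.hY
  rw [e1, e2, e3, mv_dl]
  have e4 : tCb P (mvD D π σ).l (inl y) (inl (D.dl u 1) * 1)
      (inl (D.dl u 1) * (inl (D.al * y + D.pb u) + inr (π - D.k1 * h1)))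
      (inl (D.dl u 1) * (inl (-D.be * y + D.rb u) + inr (-π - D.k2 * h1)))
      (inl (D.dl u 1) * (inl (D.S1 u 1 y / D.dl u 1) + inr (-(D.b1 * h1) + 1 +
        2 * y * (D.al * (π - D.k1 * h1) + D.be * (-π - D.k2 * h1))))) =
      inl (D.dl u 1) ^ 3 * ((-((inl (D.al * y + D.pb u) + inr (π - D.k1 * h1)) ^ 2 -
        (inl (-D.be * y + D.rb u) + inr (-π - D.k2 * h1)) ^ 2) +
        (inl (D.S1 u 1 y / D.dl u 1) + inr (-(D.b1 * h1) + 1 +
        2 * y * (D.al * (π - D.k1 * h1) + D.be * (-π - D.k2 * h1))))) ^ 2 -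
        tB P (inl D.l) (inl (D.al * y + D.pb u) + inr (π - D.k1 * h1))
          (inl (-D.be * y + D.rb u) + inr (-π - D.k2 * h1)) (inl y)) := by
    rw [tCb_smul, tCb_eq]
    rfl
  rw [mul_one (inl (D.dl u 1) : DualNumber N)] at e4
  rw [e4, tB_dual]
  have h5 := FP.S1_div hδ y
  have e5 : (-((inl (D.al * y + D.pb u) + inr (π - D.k1 * h1)) ^ 2 -
        (inl (-D.be * y + D.rb u) + inr (-π - D.k2 * h1)) ^ 2) +
        (inl (D.S1 u 1 y / D.dl u 1) + inr (-(D.b1 * h1) + 1 +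
        2 * y * (D.al * (π - D.k1 * h1) + D.be * (-π - D.k2 * h1)))) : DualNumber N) =
      inl (D.sb u * y + D.om u) + inr (-(D.b1 * h1) + 1 -
          2 * D.pb u * (π - D.k1 * h1) + 2 * D.rb u * (-π - D.k2 * h1)) := by
    rw [← h5]
    apply TrivSqZeroExt.ext
    · simp only [fst_mul, fst_sub, fst_add, fst_neg, fst_inl, fst_inr, fst_pow, add_zero, fst_one]
      ring
    · simp only [pow_two, snd_mul, snd_sub, snd_add, snd_neg, fst_neg, fst_mul, fst_sub, fst_add,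
        fst_inl, fst_inr, snd_inl, snd_inr, add_zero, zero_add, smul_eq_mul,
        MulOpposite.smul_eq_mul_unop, MulOpposite.unop_op, mul_zero, sub_zero, zero_mul, fst_one,
        snd_one]
      ring
  rw [e5, inl_pow]
  simp only [pow_two, snd_mul, snd_sub, snd_add, fst_mul, fst_sub, fst_add, fst_inl, fst_inr,
      snd_inl, snd_inr, add_zero, zero_add, smul_eq_mul, MulOpposite.smul_eq_mul_unop,
      MulOpposite.unop_op, mul_zero, sub_zero, zero_mul, fst_one, snd_one]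
  ring

end closed

/-! ### The special member -/

section special

variable {N : Type} [Field N] [Algebra ℂ N] {P : Par}
  {l al be y p0 p1 r0 r1 s0 s1 s2 zs ss : N}

/-- **The determinant at a point of the special member.** -/
theorem sp_det (hsg : s2 = -(p1 ^ 2 - r1 ^ 2)) (hY : YLine P l y p0 p1 r0 r1 s0 s1 s2) {u : N}
    (hδ : (spD P l al be y p0 p1 r0 r1 s0 s1 s2 zs ss).dl u 1 ≠ 0) (π σ : N) :
    ((mvD (spD P l al be y p0 p1 r0 r1 s0 s1 s2 zs ss) π σ).hY P (inl u) 1 (inl y)).snd =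
      (spD P l al be y p0 p1 r0 r1 s0 s1 s2 zs ss).dl u 1 ^ 3 *
      (2 * (s0 + s1 * spz (spD P l al be y p0 p1 r0 r1 s0 s1 s2 zs ss) zs u +
          s2 * spz (spD P l al be y p0 p1 r0 r1 s0 s1 s2 zs ss) zs u ^ 2) *
        (1 - 2 * π * ((spD P l al be y p0 p1 r0 r1 s0 s1 s2 zs ss).pb u +
          (spD P l al be y p0 p1 r0 r1 s0 s1 s2 zs ss).rb u)) -
        π * (H581.Z2.Bp (dat P y) l
            (p0 + p1 * spz (spD P l al be y p0 p1 r0 r1 s0 s1 s2 zs ss) zs u)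
            (r0 + r1 * spz (spD P l al be y p0 p1 r0 r1 s0 s1 s2 zs ss) zs u) -
          H581.Z2.Br (dat P y) l
            (p0 + p1 * spz (spD P l al be y p0 p1 r0 r1 s0 s1 s2 zs ss) zs u)
            (r0 + r1 * spz (spD P l al be y p0 p1 r0 r1 s0 s1 s2 zs ss) zs u))) := by
  have e0 := mv_hY (P := P) (spD P l al be y p0 p1 r0 r1 s0 s1 s2 zs ss) π σ u y rfl hδ
  have e1 := sp_p hδ
  have e2 := sp_r hδ
  have e3 := sp_S hsg hδ
  have e5 : (spD P l al be y p0 p1 r0 r1 s0 s1 s2 zs ss).b1 = s1 + 2 * s2 * zs +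
      2 * ((p0 + p1 * zs - al * y) * p1 - (r0 + r1 * zs + be * y) * r1) := rfl
  have e6 : (spD P l al be y p0 p1 r0 r1 s0 s1 s2 zs ss).k1 = p1 := rfl
  have e7 : (spD P l al be y p0 p1 r0 r1 s0 s1 s2 zs ss).k2 = r1 := rfl
  have e8 : (spD P l al be y p0 p1 r0 r1 s0 s1 s2 zs ss).l = l := rfl
  have e9 : (spD P l al be y p0 p1 r0 r1 s0 s1 s2 zs ss).al = al := rfl
  have e10 : (spD P l al be y p0 p1 r0 r1 s0 s1 s2 zs ss).be = be := rfl
  rw [e3, e5, e6, e7, e8, e9, e10, e1, e2] at e0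
  have e4 := H581.Z2.yline_der hY (spz (spD P l al be y p0 p1 r0 r1 s0 s1 s2 zs ss) zs u)
  rw [e0]
  generalize (spD P l al be y p0 p1 r0 r1 s0 s1 s2 zs ss).dl u 1 = δ at *
  generalize (spD P l al be y p0 p1 r0 r1 s0 s1 s2 zs ss).pb u = pb at *
  generalize (spD P l al be y p0 p1 r0 r1 s0 s1 s2 zs ss).rb u = rb at *
  generalize spz (spD P l al be y p0 p1 r0 r1 s0 s1 s2 zs ss) zs u = z at *
  generalize H581.Z2.Bp (dat P y) l (p0 + p1 * z) (r0 + r1 * z) = Bp at *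
  generalize H581.Z2.Br (dat P y) l (p0 + p1 * z) (r0 + r1 * z) = Br at *
  generalize 2 * σ * u / δ = h1 at *
  have f1 : pb = p0 + p1 * z - al * y := by linear_combination e1
  have f2 : rb = r0 + r1 * z + be * y := by linear_combination e2
  rw [f1, f2, hsg]
  rw [hsg] at e4
  linear_combination δ ^ 3 * h1 * e4

variable [IsAlgClosed N] [CharZero N]

/-- **The direction.** At the special member there is a direction of the family for which the first
order terms of `Δ` and `ν` are in general position at given points of the conic. -/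
theorem exists_wdir (h : NC P) (hM : P.M1 = 0) (huv : P.u ≠ P.v) (hn : IsNode P l al be)
    (hi : AlgebraicIndependent ℂ ![l, y])
    (hs : ss ^ 2 = (ntd P l al be).B2 (p0 + p1 * zs - al * y) (r0 + r1 * zs + be * y))
    (hss : ss ≠ 0) (hsg : s2 = -(p1 ^ 2 - r1 ^ 2)) (hY : YLine P l y p0 p1 r0 r1 s0 s1 s2)
    {k : ℕ} (β : Fin k → N)
    (hβ : ∀ j, (spD P l al be y p0 p1 r0 r1 s0 s1 s2 zs ss).dl (β j) 1 ≠ 0) :
    ∃ (w : Fin 8 → N) (R₀ R₁ : N[X]), ∀ (N₁ : Type) [Field N₁] [Algebra ℂ N₁] [Algebra N N₁]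
      [IsScalarTower ℂ N N₁] (V : Plc N N₁) (ε : N₁) (x : Fin 8 → N₁), ε ≠ 0 → V.Val ε 0 →
      (∀ i, V.Val (x i) (w i)) →
      (∀ j, y * R₀.eval (β j) - R₁.eval (β j) ≠ 0) ∧ ∃ Q₀ Q₁ : N₁[X],
        ((FP.of (cpar P fun i => algebraMap N N₁
          (wpar (spD P l al be y p0 p1 r0 r1 s0 s1 s2 zs ss).vec i) + ε * x i)).map C).dlt P X 1 =
          (((spD P l al be y p0 p1 r0 r1 s0 s1 s2 zs ss).map C).dlt P X 1).map
            (algebraMap N N₁) + C ε * Q₀ ∧
        ((FP.of (cpar P fun i => algebraMap N N₁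
          (wpar (spD P l al be y p0 p1 r0 r1 s0 s1 s2 zs ss).vec i) + ε * x i)).map C).nu P X 1 =
          (((spD P l al be y p0 p1 r0 r1 s0 s1 s2 zs ss).map C).nu P X 1).map
            (algebraMap N N₁) + C ε * Q₁ ∧
        PVal V Q₀ R₀ ∧ PVal V Q₁ R₁ := by
  have hl : Transcendental ℂ l := hi.transcendental 0
  have hb := spD_base (s0 := s0) (s1 := s1) (s2 := s2) hn hs
  have hw := cpar_wpar h hb.cb hl
  have ht := tr_wpar h hb.cb hl
  obtain ⟨D, hD⟩ : ∃ D, D = spD P l al be y p0 p1 r0 r1 s0 s1 s2 zs ss := ⟨_, rfl⟩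
  have hkk : 4 * ((ndt P (wpar D.vec 0)).kp - (ndt P (wpar D.vec 0)).kr) ≠ 0 := by
    rw [hD]
    exact mul_ne_zero (by norm_num) (sub_ne_zero.2 (kp_ne h ht))
  obtain ⟨κ, hκ⟩ : ∃ κ, κ = 2 * ss / (4 * ((ndt P (wpar D.vec 0)).kp -
    (ndt P (wpar D.vec 0)).kr)) := ⟨_, rfl⟩
  have hκ0 : κ ≠ 0 := by
    rw [hκ]
    exact div_ne_zero (mul_ne_zero two_ne_zero hss) hkk
  have hpi : ∀ σ, pi0 P (wpar D.vec) σ = σ * κ := by
    intro σ
    rw [hκ]
    unfold pi0
    have : wpar D.vec 2 = ss := by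
      rw [hD]
      rfl
    rw [this]
    ring
  obtain ⟨σ, hσ0, hσ⟩ := H581.Z2.exists_dir
    (fun j => D.dl (β j) 1 ^ 3 * (2 * (s0 + s1 * spz D zs (β j) + s2 * spz D zs (β j) ^ 2)))
    (fun j => -(D.dl (β j) 1 ^ 3 * κ * (4 * (s0 + s1 * spz D zs (β j) + s2 * spz D zs (β j) ^ 2) *
      (D.pb (β j) + D.rb (β j)) +
      (H581.Z2.Bp (dat P y) l (p0 + p1 * spz D zs (β j)) (r0 + r1 * spz D zs (β j)) -
        H581.Z2.Br (dat P y) l (p0 + p1 * spz D zs (β j)) (r0 + r1 * spz D zs (β j))))))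
    (fun j => by
      have hδ : D.dl (β j) 1 ≠ 0 := by
        rw [hD]
        exact hβ j
      by_cases hq : s0 + s1 * spz D zs (β j) + s2 * spz D zs (β j) ^ 2 = 0
      · right
        have h1 := H581.Z2.yline_tan_one h.P0 h.P2 h.Q huv hi hY hq
        rw [hq, mul_zero, zero_mul, zero_add]
        exact neg_ne_zero.2 (mul_ne_zero (mul_ne_zero (pow_ne_zero 3 hδ) hκ0) h1)
      · left
        exact mul_ne_zero (pow_ne_zero 3 hδ) (mul_ne_zero two_ne_zero hq))
  have hcd : FP.of (cdir P (wpar D.vec) σ) = mvD D (σ * κ) σ := by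
    rw [← hpi]
    rw [← hD] at hw
    unfold cdir
    rw [hw]
    rfl
  have hfs : FP.of (fun i => (cdir P (wpar D.vec) σ i).fst) = D := by
    rw [cdir_fst]
    rw [← hD] at hw
    rw [hw]
    rfl
  rw [← hD]
  refine ⟨wdir σ, ((dFP (cdir P (wpar D.vec) σ)).dlt P (inl X) 1).snd,
    ((dFP (cdir P (wpar D.vec) σ)).nu P (inl X) 1).snd, ?_⟩
  intro N₁ _ _ _ _ V ε x hε0 hε hx
  have : CharZero N₁ := charZero_of_injective_algebraMap (algebraMap ℂ N₁).injective
  have hj := jt_cpar (P := P) h hε (by rw [hD]; exact ht) hx (w := wpar D.vec)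
  have hval : ∀ i, V.Val (algebraMap N N₁ (wpar D.vec i) + ε * x i) (wpar D.vec i) := by
    intro i
    have h3 := (V.val_const (wpar D.vec i)).add (hε.mul (hx i))
    rwa [zero_mul, add_zero] at h3
  have hb₁ : (FP.of (cpar P fun i => algebraMap N N₁ (wpar D.vec i) + ε * x i)).Base P :=
    FP.base_of (cb_cpar h (H55Z.tr_of_val (hval 0) (by rw [hD]; exact ht)))
  obtain ⟨Q₀, a1, a2⟩ := jet_dlt P hε hj
  obtain ⟨Q₁, b1, b2⟩ := jet_nu P hε hj
  rw [hfs] at a1 b1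
  refine ⟨fun j => ?_, Q₀, Q₁, a1, b1, a2, b2⟩
  rw [det_eq P hε hε0 hj y (hY_line hM hb₁ _), hcd, hD, sp_det hsg hY (hβ j), ← hD]
  intro h0
  apply hσ j
  linear_combination h0

end special

end Vale.Agent.P297.H860.Z2
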