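import Vale.Agent.P297.H251.Z2.ChordLine
import Vale.Agent.P297.H860.Z2.Sgn

/-!
The chords of the canonical curves are lines of the double solids: with the sign, the equation of
the surface on the line and the two good points.
-/

set_option linter.unusedSectionVars false
set_option linter.unusedVariables false

open Polynomial

namespace Vale.Agent.P297.H860.Z2

open Vale.Agent.P297 Vale.Agent.P297.Gen Vale.Agent.P297.H72
open Vale.Agent.P297.H160.Z2Irr Vale.Agent.P297.Z2 Vale.Agent.P297.H251.Z2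

section

variable {N : Type} [Field N] [Algebra ℂ N] {P : Par}

theorem eval_tPhi_c (l : N) (p r y S : N[X]) (z : N) :
    (tPhi P (C l) p r y S).eval z = tPhi P l (p.eval z) (r.eval z) (y.eval z) (S.eval z) := by
  rw [← evz_apply, map_tPhi]
  simp only [evz_apply, eval_C]

theorem eval_tB_c (l : N) (p r y : N[X]) (z : N) :
    (tB P (C l) p r y).eval z = tB P l (p.eval z) (r.eval z) (y.eval z) := by
  rw [← evz_apply, map_tB]
  simp only [evz_apply, eval_C]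

/-- A point of the double solid over a generic point is good. -/
theorem good_cor {w : Fin 5 → N} (hw : GenS P w) {y : N} (hy : w 2 = y)
    (hU : (dat P y).U ≠ 0) (hV : (dat P y).V ≠ 0) {l : N} (hh : (dat P y).h l ≠ 0)
    {p r S v0 v1 v2 v3 : N} (hc : (dat P y).Cor l p r S v0 v1 v2 v3) {μ : N} (hμ : μ ≠ 0)
    (h0 : v0 = μ) (h1 : v1 = μ * w 1) (h2 : v2 = μ * w 3) (h3 : v3 = μ * w 4)
    (hL : (dat P (w 2)).wL 1 (w 1) (w 3) (w 4) ≠ 0) :
    H55Z.Good P l p r y S ∧ toS P l p r y S = w := by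
  have : CharZero N := charZero_of_injective_algebraMap (algebraMap ℂ N).injective
  subst hy
  have hC := gen_wC_ne hw hL
  obtain ⟨q0, q1, q3, q4⟩ := hc.toX (x := w 0) (κ := w 1) (σ := w 3) (τ := w 4) hU hV hμ h0 h1 h2
    h3 hC (gen_mul_wC hw)
  have e : toS P l p r (w 2) S = w := by
    funext i
    fin_cases i
    · exact q0
    · exact q1
    · rfl
    · exact q3
    · exact q4
  refine ⟨⟨hU, hV, ?_, ?_, hh, ?_⟩, e⟩
  · rw [hc.E, h0]
    exact hμ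
  · have hK : (dat P (w 2)).Kc l p r S = 2 * (dat P (w 2)).U * (dat P (w 2)).V *
        (μ ^ 3 * Dat.wC 1 (w 1) (w 3) (w 4)) := by
      unfold Dat.Kc Dat.wC
      rw [hc.E, hc.F, hc.s, hc.t, h0, h1, h2, h3]
      ring
    rw [hK]
    exact mul_ne_zero (mul_ne_zero (mul_ne_zero two_ne_zero hU) hV)
      (mul_ne_zero (pow_ne_zero 3 hμ) hC)
  · rw [e]
    exact hw

end

section main

variable {K : Type} [Field K] [Algebra ℂ K] {N : Type} [Field N] [Algebra ℂ N] {P : Par}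

/-- **The chords are lines of the double solid.** -/
theorem exists_yline_s (x₀ : Fin 5 → K) {w w' : Fin 5 → N} (hw : GenS P w) (hw' : GenS P w')
    (hy : w' 2 = w 2) {l g0 g1 g2 g3 : N}
    (hl : (dat P (w 2)).Lin l (w 1) (w 3) (w 4) g0 g1 g2 g3)
    (hL' : (dat P (w 2)).wL 1 (w' 1) (w' 3) (w' 4) ≠ 0) {c : N} (hc : c ≠ 0)
    (c0 : c = (dat P (w 2)).wQ g0 g1 g2 g3 -
      (dat P (w 2)).wb 1 (w 1) (w 3) (w 4) g0 g1 g2 g3 * g0)
    (c1 : c * w' 1 = (dat P (w 2)).wQ g0 g1 g2 g3 * w 1 -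
      (dat P (w 2)).wb 1 (w 1) (w 3) (w 4) g0 g1 g2 g3 * g1)
    (c2 : c * w' 3 = (dat P (w 2)).wQ g0 g1 g2 g3 * w 3 -
      (dat P (w 2)).wb 1 (w 1) (w 3) (w 4) g0 g1 g2 g3 * g2)
    (c3 : c * w' 4 = (dat P (w 2)).wQ g0 g1 g2 g3 * w 4 -
      (dat P (w 2)).wb 1 (w 1) (w 3) (w 4) g0 g1 g2 g3 * g3) :
    ∃ p0 p1 r0 r1 s0 s1 s2 z z' : N, YGood P l (w 2) p0 p1 r0 r1 s0 s1 s2 z z' ∧
      ycyc P x₀ l (w 2) p0 p1 r0 r1 s0 s1 s2 = H160.Z2Irr.pt x₀ w + H160.Z2Irr.pt x₀ w' := by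
  classical
  have : CharZero N := charZero_of_injective_algebraMap (algebraMap ℂ N).injective
  set D := dat P (w 2) with hD
  have hU : D.U ≠ 0 := hw.nU
  have hV : D.V ≠ 0 := hw.nV
  have hh : D.h l ≠ 0 := hl.h_ne hU hV
  set κ := w 1 with hκ
  set σ := w 3 with hσ
  set τ := w 4 with hτ
  set Q := D.wQ g0 g1 g2 g3 with hQ
  set b := D.wb 1 κ σ τ g0 g1 g2 g3 with hb
  have hQ0 : Q ≠ 0 := hl.gQ
  have hL0 : D.wL 1 κ σ τ ≠ 0 := hl.xL
  obtain ⟨la, hla⟩ : ∃ m : N, m = D.h l / (D.U * D.V * D.wL 1 κ σ τ) := ⟨_, rfl⟩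
  have hla0 : la ≠ 0 := by
    rw [hla]
    exact div_ne_zero hh (mul_ne_zero (mul_ne_zero hU hV) hL0)
  have hlaL : D.U * D.V * (la * D.wL 1 κ σ τ) = D.h l := by
    rw [hla]
    field_simp
  obtain ⟨p0, hp0⟩ : ∃ m : N, m = (la - D.B * D.U) / D.V := ⟨_, rfl⟩
  obtain ⟨p1, hp1⟩ : ∃ m : N, m = g0 / D.V := ⟨_, rfl⟩
  obtain ⟨r0, hr0⟩ : ∃ m : N, m = (la * κ - D.A * D.V) / D.U := ⟨_, rfl⟩
  obtain ⟨r1, hr1⟩ : ∃ m : N, m = g1 / D.U := ⟨_, rfl⟩
  obtain ⟨s0, hs0⟩ : ∃ m : N, m = -((p0 + r0) ^ 2 + D.a * p0 + D.c * r0 - D.m -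
      l * (D.U * p0 + D.V * r0 - D.e) - 2 * (p0 * r0 - D.A * D.B)) +
      2 * (la * κ - 2 * D.A * D.V - l * D.U * D.V) * (la * κ) / D.U ^ 2 -
      2 * D.V * (la * σ) / D.U := ⟨_, rfl⟩
  obtain ⟨s1, hs1⟩ : ∃ m : N, m = -(2 * (p0 + r0) * (p1 + r1) + D.a * p1 + D.c * r1 -
      l * (D.U * p1 + D.V * r1) - 2 * (p0 * r1 + p1 * r0)) +
      2 * ((la * κ - 2 * D.A * D.V - l * D.U * D.V) * g1 + g1 * (la * κ)) / D.U ^ 2 -
      2 * D.V * g2 / D.U := ⟨_, rfl⟩
  obtain ⟨s2, hs2⟩ : ∃ m : N, m = -(p1 ^ 2 + r1 ^ 2) + 2 * g1 ^ 2 / D.U ^ 2 := ⟨_, rfl⟩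
  have hcor : ∀ z : N, D.Cor l (p0 + p1 * z) (r0 + r1 * z) (s0 + s1 * z + s2 * z ^ 2)
      (la * 1 + z * g0) (la * κ + z * g1) (la * σ + z * g2) (la * τ + z * g3) := by
    intro z
    refine Dat.Cor.of hU hV ?_ ?_ ?_ ?_
    · unfold Dat.E
      rw [hp0, hp1]
      field_simp
      ring
    · unfold Dat.F
      rw [hr0, hr1]
      field_simp
      ring
    · have hF : D.F (r0 + r1 * z) = la * κ + z * g1 := by
        unfold Dat.F
        rw [hr0, hr1]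
        field_simp
        ring
      have hK : D.K l (p0 + p1 * z) (r0 + r1 * z) + (s0 + s1 * z + s2 * z ^ 2) =
          2 * (la * κ + z * g1 - 2 * D.A * D.V - l * D.U * D.V) * (la * κ + z * g1) / D.U ^ 2 -
            2 * D.V * (la * σ + z * g2) / D.U := by
        rw [hs0, hs1, hs2]
        unfold Dat.K Dat.J0 Dat.J1 Dat.N
        ring
      have hr : (r0 + r1 * z) * D.U = la * κ + z * g1 - D.A * D.V := by
        rw [hr0, hr1]
        field_simp
        ring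
      unfold Dat.sN
      rw [hK, hF]
      have hr' : (r0 + r1 * z - l * D.V) * D.U - D.A * D.V =
          la * κ + z * g1 - 2 * D.A * D.V - l * D.U * D.V := by
        linear_combination hr
      rw [hr']
      field_simp
      ring
    · rw [Dat.wL_line, hl.gL, mul_zero, add_zero]
      exact hlaL
  have hYL : YLine P l (w 2) p0 p1 r0 r1 s0 s1 s2 := by
    refine ⟨?_, ?_⟩
    · rcases hl.g_ne with h | h
      · left
        rw [hp1]
        exact div_ne_zero h hV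
      · right
        rw [hr1]
        exact div_ne_zero h hU
    · apply Polynomial.funext
      intro z
      rw [eval_tB_c]
      simp only [eval_add, eval_mul, eval_C, eval_X, eval_pow]
      exact hl.B hU hV (hcor z)
  obtain ⟨z', hz'⟩ : ∃ m : N, m = -(la * b) / Q := ⟨_, rfl⟩
  have hPhi : tPhi P (C l) (C p0 + C p1 * X) (C r0 + C r1 * X) (C (w 2))
      (C s0 + C s1 * X + C s2 * X ^ 2) =
      C (-2 * D.U ^ 2 * D.V ^ 2 * Q) * ((X - C 0) * (X - C z')) := by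
    apply Polynomial.funext
    intro z
    rw [eval_tPhi_c]
    simp only [eval_add, eval_mul, eval_C, eval_X, eval_pow, eval_sub]
    have h1 := hl.Phi hU hV (hcor z)
    have h2 : Q * z' = -(la * b) := by
      rw [hz']
      field_simp
    refine h1.trans ?_
    linear_combination (-2 * D.U ^ 2 * D.V ^ 2) * (z * h2)
  have hk0 : -2 * D.U ^ 2 * D.V ^ 2 * Q ≠ 0 :=
    mul_ne_zero (mul_ne_zero (mul_ne_zero (neg_ne_zero.2 two_ne_zero) (pow_ne_zero 2 hU))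
      (pow_ne_zero 2 hV)) hQ0
  obtain ⟨a1, a2⟩ := good_cor hw rfl hU hV hh (hcor 0) hla0 (by ring) (by ring) (by ring)
    (by ring) hL0
  have hμ : la * c / Q ≠ 0 := div_ne_zero (mul_ne_zero hla0 hc) hQ0
  have hD' : dat P (w' 2) = D := by rw [hy]
  obtain ⟨b1, b2⟩ := good_cor hw' hy hU hV hh (hcor z') hμ (by
      rw [c0, hz']
      field_simp
      ring) (by
      rw [div_mul_eq_mul_div, mul_assoc, c1, hz']
      field_simp
      ring) (by
      rw [div_mul_eq_mul_div, mul_assoc, c2, hz']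
      field_simp
      ring) (by
      rw [div_mul_eq_mul_div, mul_assoc, c3, hz']
      field_simp
      ring) (by rw [hD']; exact hL')
  have hG : YGood P l (w 2) p0 p1 r0 r1 s0 s1 s2 0 z' := by
    refine ⟨hYL, ?_, ⟨_, hk0, hPhi⟩, a1, b1⟩
    rw [hs2, hr1]
    field_simp
    ring
  refine ⟨p0, p1, r0, r1, s0, s1, s2, 0, z', hG, ?_⟩
  rw [hG.cyc_eq x₀, a2, b2]

end main

end Vale.Agent.P297.H860.Z2

namespace Vale.Agent.P297.H860.Z2

open Vale.Agent.P297 Vale.Agent.P297.Gen Vale.Agent.P297.H72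
open Vale.Agent.P297.H160.Z2Irr Vale.Agent.P297.H279.K2 Vale.Agent.P297.H288.K2
open Vale.Agent.P297.Z2 Vale.Agent.P297.H251.Z2

section

variable {N : Type} [Field N] [Algebra ℂ N] [IsAlgClosed N] {P : Par} {l t : N} {w w' : Fin 5 → N}

/-- **The chords are lines of the double solid.** -/
theorem chord_yline_s (hLI : LinInd P N) {K : Type} [Field K] [Algebra ℂ K] (x₀ : Fin 5 → K)
    (h : IsChord P l t w w') : ∃ p0 p1 r0 r1 s0 s1 s2 z z' : N,
      YGood P l (w 2) p0 p1 r0 r1 s0 s1 s2 z z' ∧ ycyc P x₀ l (w 2) p0 p1 r0 r1 s0 s1 s2 =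
        H160.Z2Irr.pt x₀ w + H160.Z2Irr.pt x₀ w' := by
  have hxL' := L_ne hLI h.gen'
  rw [h.y_eq, kd_L] at hxL'
  obtain ⟨c, hc, h1⟩ := h.thd
  have hQ : (kd P (w 2)).Q ((kd P (w 2)).gam 1 t) = (dat P (w 2)).wQ ((kd P (w 2)).gam 1 t 0)
      ((kd P (w 2)).gam 1 t 1) ((kd P (w 2)).gam 1 t 2) ((kd P (w 2)).gam 1 t 3) := kd_Q _ _ _
  have hb : (kd P (w 2)).b (vec w) ((kd P (w 2)).gam 1 t) = (dat P (w 2)).wb 1 (w 1) (w 3) (w 4)
      ((kd P (w 2)).gam 1 t 0) ((kd P (w 2)).gam 1 t 1) ((kd P (w 2)).gam 1 t 2)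
      ((kd P (w 2)).gam 1 t 3) := kd_b _ _ _ _
  have hc0 := congrFun h1 0
  have hc1 := congrFun h1 1
  have hc2 := congrFun h1 2
  have hc3 := congrFun h1 3
  unfold KD.zz KD.lc at hc0 hc1 hc2 hc3
  rw [hQ, hb] at hc0 hc1 hc2 hc3
  refine exists_yline_s x₀ h.gen h.gen' h.y_eq (toLin hLI h) hxL' hc ?_ ?_ ?_ ?_
  · have h5 : vec w' 0 = 1 := rfl
    have h6 : vec w 0 = 1 := rfl
    rw [h5, h6] at hc0
    linear_combination -hc0
  · have h5 : vec w' 1 = w' 1 := rfl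
    have h6 : vec w 1 = w 1 := rfl
    rw [h5, h6] at hc1
    linear_combination -hc1
  · have h5 : vec w' 2 = w' 3 := rfl
    have h6 : vec w 2 = w 3 := rfl
    rw [h5, h6] at hc2
    linear_combination -hc2
  · have h5 : vec w' 3 = w' 4 := rfl
    have h6 : vec w 3 = w 4 := rfl
    rw [h5, h6] at hc3
    linear_combination -hc3

/-- **The block `ChordLineS`.** -/
theorem chordLineS {K : Type} [Field K] [Algebra ℂ K] (x₀ : Fin 5 → K) (h0 : P.P0 ≠ 0)
    (h2 : P.P2 ≠ 0) (hQ : P.Q0 ≠ P.Q1) : ChordLineS P x₀ N fun l w w' => ∃ t, IsChord P l t w w' := by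
  rintro l w w' ⟨t, h⟩
  exact ⟨ind_ly (linInd h0 h2) hQ h0 h, chord_yline_s (linInd h0 h2) x₀ h⟩

end

end Vale.Agent.P297.H860.Z2
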