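import Vale.Agent.P297.H860.Z2.Dir6
import Vale.Agent.P297.H637.Z2.Spec6

/-!
The degenerate member of the family of the two-sections is a relation.
-/

set_option linter.unusedSectionVars false
set_option linter.unusedVariables false

open Polynomial

namespace Vale.Agent.P297.H860.Z2

open Vale.Agent.P297 Vale.Agent.P297.Gen Vale.Agent.P297.H72 Vale.Agent.P297.H637
open Vale.Agent.P297.H160.Z2Irr Vale.Agent.P297.Z2

variable {K N : Type} [Field K] [Algebra ℂ K] [Field N] [Algebra ℂ N] [IsAlgClosed N]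
  {P : Par} {x₀ : Fin 5 → K} {l al be y p0 p1 r0 r1 s0 s1 s2 zs ss : N}

/-- **The degenerate member is a relation.** -/
theorem mem_rel {m : ℤ} (hx : H160.Z2Irr.IsFF P x₀) (h : NC P) (hM : P.M1 = 0) (huv : P.u ≠ P.v)
    (hn : IsNode P l al be) (hi : AlgebraicIndependent ℂ ![l, y])
    (hs : ss ^ 2 = (ntd P l al be).B2 (p0 + p1 * zs - al * y) (r0 + r1 * zs + be * y))
    (hss : ss ≠ 0) (hsg : s2 = -(p1 ^ 2 - r1 ^ 2)) (hY : YLine P l y p0 p1 r0 r1 s0 s1 s2)
    {κ : N} {β : Fin 6 → N}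
    (hm : FP.Mem P (spD P l al be y p0 p1 r0 r1 s0 s1 s2 zs ss) y κ β) :
    (((spD P l al be y p0 p1 r0 r1 s0 s1 s2 zs ss).gpoly P y).roots.map
        fun a => H160.Z2Irr.pt x₀ ((spD P l al be y p0 p1 r0 r1 s0 s1 s2 zs ss).qS P a y)).sum +
      ∑ j, (((spD P l al be y p0 p1 r0 r1 s0 s1 s2 zs ss).lnp P (β j)).roots.map
        fun v => H160.Z2Irr.pt x₀ ((spD P l al be y p0 p1 r0 r1 s0 s1 s2 zs ss).qS P (β j) v)).sum
      ∈ Rel m K N := by
  have : CharZero N := charZero_of_injective_algebraMap (algebraMap ℂ N).injective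
  have hl : Transcendental ℂ l := hi.transcendental 0
  obtain ⟨D, hD⟩ : ∃ D, D = spD P l al be y p0 p1 r0 r1 s0 s1 s2 zs ss := ⟨_, rfl⟩
  have hb : D.Base P := by
    rw [hD]
    exact spD_base hn hs
  have hDl : D.l = l := by
    rw [hD]
    rfl
  have hw := cpar_wpar h hb.cb (show Transcendental ℂ D.l by rw [hDl]; exact hl)
  have ht := tr_wpar h hb.cb (show Transcendental ℂ D.l by rw [hDl]; exact hl)
  obtain ⟨w, R₀, R₁, hdir⟩ := exists_wdir h hM huv hn hi hs hss hsg hY β hm.dβ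
  rw [← hD] at hm hdir ⊢
  refine H860.multi_specC_abs (fun L _ _ _ w => FP.Vw P x₀ L w)
    (fun L L' _ _ _ _ _ _ g w => FP.map_Vw hx g w) (wpar D.vec) w _
    (fun N₁ _ _ _ _ _ V e v he0 he hv hfree => ?_)
  have : CharZero N₁ := charZero_of_injective_algebraMap (algebraMap ℂ N₁).injective
  obtain ⟨hdet, Q₀, Q₁, a1, b1, a2, b2⟩ := hdir N₁ V e v he0 he hv
  have hval : ∀ i, V.Val (algebraMap N N₁ (wpar D.vec i) + e * v i) (wpar D.vec i) := by
    intro i
    have h3 := (V.val_const (wpar D.vec i)).add (he.mul (hv i))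
    rwa [zero_mul, add_zero] at h3
  have hc := fun i => val_cpar h hval ht i
  rw [hw] at hc
  have hspec := FP.Mem.spec (K := K) (x₀ := x₀) hx hM (FP.of_vec D).symm rfl hm hc
    (FP.base_of (cb_cpar h (H55Z.tr_of_val (hval 0) ht))) he he0 (R := ![Q₀, Q₁])
    (R₀ := ![R₀, R₁]) (by
      intro i
      fin_cases i
      · exact a2
      · exact b2) a1 b1 hdet
  exact hspec.1

end Vale.Agent.P297.H860.Z2
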